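import Vale.Agent.P043.H467.Plates

/-!
# P043: the union of the translated plates is connected
-/

set_option autoImplicit false

namespace Vale.Agent.P043.H467

open Vale.Agent.P043

variable (B β T x1 z0 : ℤ)

/-- Odd columns of the plate are full. -/
theorem not_Sx_odd {i z : ℤ} : ¬ Sx B β T x1 z0 (2 * i + 1) z := by
  rintro ⟨k, -, -, ⟨a, ha⟩, -⟩
  have : 2 * (x1 - i - k - B * a) = 1 := by linear_combination ha
  omega

/-- Every even column of the plate has a cell which is not removed. -/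
theorem exists_not_Sx (hB : 1 ≤ B) (hβ : 1 ≤ β) (hT1 : 1 ≤ T) (hT : T + B ≤ β * B ^ 2 + 1) (i : ℤ) :
    ∃ z, 0 ≤ z ∧ z < β * B ^ 2 + 1 ∧ ¬ Sx B β T x1 z0 (2 * i) z := by
  have hH : 0 < β * B ^ 2 + 1 := by positivity
  have hB0 : 0 < B := by omega
  -- index of a fresh cell in the column
  set m := T + (x1 - i - T) % B with hm
  have hm1 : T ≤ m := by have := Int.emod_nonneg (x1 - i - T) hB0.ne'; omega
  have hm2 : m < T + B := by have := Int.emod_lt_of_pos (x1 - i - T) hB0; omega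
  refine ⟨(z0 - β * m) % (β * B ^ 2 + 1), Int.emod_nonneg _ hH.ne', Int.emod_lt_of_pos _ hH, ?_⟩
  rintro ⟨k, hk1, hk2, -, h2⟩
  have h3 : β * B ^ 2 + 1 ∣ (z0 - β * m) - (z0 - β * m) % (β * B ^ 2 + 1) := Int.dvd_self_sub_emod
  have h4 : β * B ^ 2 + 1 ∣ β * m - β * k := by
    have := dvd_sub h2 h3
    refine (dvd_iff_dvd_of_dvd_sub ?_).1 this
    exact ⟨0, by ring⟩
  have := arm_inj B β hB hβ h4 (by linarith) (by linarith)
  omega

/-- The start of the arm is not removed from the plate. -/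
theorem not_Sx_start (hB : 1 ≤ B) (hβ : 1 ≤ β) (hT : T ≤ β * B ^ 2 + 1) :
    ¬ Sx B β T x1 z0 (2 * x1) z0 := by
  rintro ⟨k, hk1, hk2, -, h2⟩
  have h4 : β * B ^ 2 + 1 ∣ β * 0 - β * k := by
    refine (dvd_iff_dvd_of_dvd_sub ?_).1 h2
    exact ⟨0, by ring⟩
  have := arm_inj B β hB hβ h4 (by linarith) (by linarith)
  omega

section conn

variable {B β T x1 z0} (hB : 1 ≤ B) (hβ : 1 ≤ β) (hT1 : 1 ≤ T) (hT : T + B ≤ β * B ^ 2 + 1)
  (hx1 : 0 ≤ x1) (hx1' : x1 < B) (hz0 : 0 ≤ z0) (hz0' : z0 < β * B ^ 2 + 1)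
  {S : Set (Fin 3 → ℤ)} {w : Fin 3 → ℤ} (hS : ∀ c, inD B β T x1 z0 c → w + c ∈ S)

include hS

theorem mem_plate {x z : ℤ} (h1 : 0 ≤ x) (h2 : x < 2 * B) (h3 : 0 ≤ z) (h4 : z < β * B ^ 2 + 1)
    (h5 : ¬ Sx B β T x1 z0 x z) : w + v3 x 0 z ∈ S :=
  hS _ (Or.inl ⟨rfl, ⟨h1, h2⟩, ⟨h3, h4⟩, h5⟩)

/-- Odd columns are connected. -/
theorem rch_col {i z : ℤ} (h1 : 0 ≤ i) (h2 : i < B) (h3 : 0 ≤ z) (h4 : z < β * B ^ 2 + 1) :
    Rch S (w + v3 (2 * i + 1) 0 0) (w + v3 (2 * i + 1) 0 z) := by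
  refine Rch.chain (fun k => w + v3 (2 * i + 1) 0 k) 0 (β * B ^ 2) ?_ z h3 (by omega)
  intro k hk1 hk2
  refine Rch.step ?_ ?_ (adj_z w _ _ _)
  · exact mem_plate hS (by omega) (by omega) hk1 (by omega) (not_Sx_odd _ _ _ _ _)
  · exact mem_plate hS (by omega) (by omega) (by omega) (by omega) (not_Sx_odd _ _ _ _ _)

include hB hβ hT1 hT

/-- Consecutive odd columns are connected. -/
theorem rch_next {i : ℤ} (h1 : 0 ≤ i) (h2 : i + 1 < B) :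
    Rch S (w + v3 (2 * i + 1) 0 0) (w + v3 (2 * (i + 1) + 1) 0 0) := by
  obtain ⟨z, hz1, hz2, hz3⟩ := exists_not_Sx B β T x1 z0 hB hβ hT1 hT (i + 1)
  refine (rch_col hS h1 (by omega) hz1 hz2).trans (Rch.trans ?_ (rch_col hS (by omega) h2 hz1 hz2).symm)
  have e1 : 2 * (i + 1) = 2 * i + 1 + 1 := by ring
  rw [e1] at hz3 ⊢
  refine (Rch.step ?_ ?_ (adj_x w (2 * i + 1) 0 z)).trans (Rch.step ?_ ?_ (adj_x w (2 * i + 1 + 1) 0 z))
  · exact mem_plate hS (by omega) (by omega) hz1 hz2 (not_Sx_odd _ _ _ _ _)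
  · exact mem_plate hS (by omega) (by omega) hz1 hz2 hz3
  · exact mem_plate hS (by omega) (by omega) hz1 hz2 hz3
  · have e2 : 2 * i + 1 + 1 + 1 = 2 * (i + 1) + 1 := by ring
    rw [e2]
    exact mem_plate hS (by omega) (by omega) hz1 hz2 (not_Sx_odd _ _ _ _ _)

theorem rch_odd {i z : ℤ} (h1 : 0 ≤ i) (h2 : i < B) (h3 : 0 ≤ z) (h4 : z < β * B ^ 2 + 1) :
    Rch S (w + v3 1 0 0) (w + v3 (2 * i + 1) 0 z) := by
  refine Rch.trans ?_ (rch_col hS h1 h2 h3 h4)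
  have := Rch.chain (S := S) (fun k => w + v3 (2 * k + 1) 0 0) 0 (B - 1)
    (fun k hk1 hk2 => rch_next hB hβ hT1 hT hS hk1 (by omega)) i h1 (by omega)
  simpa using this

theorem rch_plate {x z : ℤ} (h1 : 0 ≤ x) (h2 : x < 2 * B) (h3 : 0 ≤ z) (h4 : z < β * B ^ 2 + 1)
    (h5 : ¬ Sx B β T x1 z0 x z) : Rch S (w + v3 1 0 0) (w + v3 x 0 z) := by
  rcases Int.emod_two_eq_zero_or_one x with hx | hx
  · obtain ⟨i, rfl⟩ : ∃ i, x = 2 * i := ⟨x / 2, by omega⟩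
    refine (rch_odd hB hβ hT1 hT hS (i := i) (by omega) (by omega) h3 h4).trans
      (Rch.step ?_ ?_ (adj_x w (2 * i) 0 z)).symm
    · exact mem_plate hS h1 h2 h3 h4 h5
    · exact mem_plate hS (by omega) (by omega) h3 h4 (not_Sx_odd _ _ _ _ _)
  · obtain ⟨i, rfl⟩ : ∃ i, x = 2 * i + 1 := ⟨x / 2, by omega⟩
    exact rch_odd hB hβ hT1 hT hS (by omega) (by omega) h3 h4

include hx1 hx1' hz0 hz0'

/-- The arm is connected to the plate. -/
theorem rch_arm {k : ℤ} (hk1 : 0 ≤ k) (hk2 : k < T) :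
    Rch S (w + v3 1 0 0) (w + v3 (2 * x1) k z0) := by
  have hns := not_Sx_start B β T x1 z0 hB hβ (by omega)
  refine (rch_plate hB hβ hT1 hT hS (by omega) (by omega) hz0 hz0' hns).trans ?_
  have hmem : ∀ k, 0 ≤ k → k < T → w + v3 (2 * x1) k z0 ∈ S := by
    intro k hk1 hk2
    rcases eq_or_lt_of_le hk1 with h | h
    · rw [← h]
      exact mem_plate hS (by omega) (by omega) hz0 hz0' hns
    · exact hS _ (Or.inr ⟨rfl, ⟨by simp only [v3_1]; omega, hk2⟩, rfl⟩)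
  exact Rch.chain (S := S) (fun k => w + v3 (2 * x1) k z0) 0 (T - 1)
    (fun k hk1 hk2 => Rch.step (hmem _ hk1 (by omega)) (hmem _ (by omega) (by omega))
      (adj_y w _ _ _)) k hk1 (by omega)

theorem rch_all {c : Fin 3 → ℤ} (hc : inD B β T x1 z0 c) : Rch S (w + v3 1 0 0) (w + c) := by
  rcases hc with ⟨h1, h2, h3, h4⟩ | ⟨h1, h2, h3⟩
  · have e : c = v3 (c 0) 0 (c 2) := ext3 rfl h1 rfl
    rw [e]
    exact rch_plate hB hβ hT1 hT hS h2.1 h2.2 h3.1 h3.2 h4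
  · have e : c = v3 (2 * x1) (c 1) z0 := ext3 h1 rfl h3
    rw [e]
    exact rch_arm hB hβ hT1 hT hx1 hx1' hz0 hz0' hS (by omega) h2.2

/-- The arm at `w` meets the plate at `w'`. -/
theorem rch_cross {w' : Fin 3 → ℤ} (hS' : ∀ c, inD B β T x1 z0 c → w' + c ∈ S) {k i z : ℤ}
    (hk1 : 0 ≤ k) (hk2 : k < T) (hi : 0 ≤ i) (hi' : i < B) (hz : 0 ≤ z) (hz' : z < β * B ^ 2 + 1)
    (e : w + v3 (2 * x1) k z0 = w' + v3 (2 * i) 0 z) :
    Rch S (w + v3 1 0 0) (w' + v3 1 0 0) := by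
  refine (rch_arm hB hβ hT1 hT hx1 hx1' hz0 hz0' hS hk1 hk2).trans
    (Rch.trans ?_ (rch_odd hB hβ hT1 hT hS' hi hi' hz hz').symm)
  rw [e]
  refine Rch.step ?_ ?_ (adj_x w' (2 * i) 0 z)
  · rw [← e]
    rcases eq_or_lt_of_le hk1 with h | h
    · rw [← h]
      exact mem_plate hS (by omega) (by omega) hz0 hz0'
        (not_Sx_start B β T x1 z0 hB hβ (by omega))
    · exact hS _ (Or.inr ⟨rfl, ⟨by simp only [v3_1]; omega, hk2⟩, rfl⟩)
  · exact mem_plate hS' (by omega) (by omega) hz hz' (not_Sx_odd _ _ _ _ _)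

end conn

end Vale.Agent.P043.H467
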