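import Mathlib.Combinatorics.SimpleGraph.Basic
import Vale.Agent.P043.Defs

/-!
# P043: the grid graph
-/

set_option autoImplicit false

namespace Vale.Agent.P043.H467

/-- The nearest-neighbour graph of `ℤ^d`: `x` and `y` are adjacent if they differ by a unit vector. -/
def grid (d : ℕ) : SimpleGraph (Fin d → ℤ) where
  Adj x y := ∑ i, |x i - y i| = 1
  symm := ⟨fun x y h => by
    rw [← h]
    exact Finset.sum_congr rfl fun i _ => abs_sub_comm _ _⟩
  loopless := ⟨fun x h => by simp at h⟩

end Vale.Agent.P043.H467
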