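import Mathlib.Combinatorics.SimpleGraph.Connectivity.Connected
import Vale.Agent.P043.H467.Defs

/-!
# P043: the grid graph
-/

set_option autoImplicit false

namespace Vale.Agent.P043.H467

/-- Steps inside the set `S`. -/
def Stp {d : ℕ} (S : Set (Fin d → ℤ)) (x y : Fin d → ℤ) : Prop := x ∈ S ∧ y ∈ S ∧ (grid d).Adj x y

/-- Reachability inside the set `S`. -/
def Rch {d : ℕ} (S : Set (Fin d → ℤ)) : (Fin d → ℤ) → (Fin d → ℤ) → Prop :=
  Relation.ReflTransGen (Stp S)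

theorem Rch.symm {d : ℕ} {S : Set (Fin d → ℤ)} {x y : Fin d → ℤ} (h : Rch S x y) : Rch S y x := by
  induction h with
  | refl => exact Relation.ReflTransGen.refl
  | tail _ h2 ih => exact Relation.ReflTransGen.head ⟨h2.2.1, h2.1, h2.2.2.symm⟩ ih

theorem Rch.trans {d : ℕ} {S : Set (Fin d → ℤ)} {x y z : Fin d → ℤ} (h : Rch S x y)
    (h' : Rch S y z) : Rch S x z := Relation.ReflTransGen.trans h h'

theorem Rch.refl {d : ℕ} {S : Set (Fin d → ℤ)} (x : Fin d → ℤ) : Rch S x x :=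
  Relation.ReflTransGen.refl

theorem Rch.step {d : ℕ} {S : Set (Fin d → ℤ)} {x y : Fin d → ℤ} (hx : x ∈ S) (hy : y ∈ S)
    (h : (grid d).Adj x y) : Rch S x y := Relation.ReflTransGen.single ⟨hx, hy, h⟩

/-- Chains of steps indexed by integers. -/
theorem Rch.chain {d : ℕ} {S : Set (Fin d → ℤ)} (c : ℤ → Fin d → ℤ) (a b : ℤ)
    (h : ∀ k, a ≤ k → k < b → Rch S (c k) (c (k + 1))) :
    ∀ k, a ≤ k → k ≤ b → Rch S (c a) (c k) := by
  intro k hk
  induction k, hk using Int.leInduction with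
  | base => intro _; exact Rch.refl _
  | succ n hn ih => intro hnb; exact (ih (by omega)).trans (h n hn (by omega))

theorem connected_of_rch {d : ℕ} {S : Set (Fin d → ℤ)} {x0 : Fin d → ℤ} (h0 : x0 ∈ S)
    (h : ∀ x ∈ S, Rch S x0 x) : ((grid d).induce S).Connected := by
  have key : ∀ x y, Rch S x y → ∀ (hx : x ∈ S) (hy : y ∈ S),
      ((grid d).induce S).Reachable ⟨x, hx⟩ ⟨y, hy⟩ := by
    intro x y hxy
    induction hxy with
    | refl => intro hx hy; exact SimpleGraph.Reachable.refl _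
    | tail h1 h2 ih =>
      intro hx hy
      refine (ih hx h2.1).trans ?_
      exact SimpleGraph.Adj.reachable (by
        rw [SimpleGraph.induce_adj]
        exact h2.2.2)
  rw [SimpleGraph.connected_iff_exists_forall_reachable]
  exact ⟨⟨x0, h0⟩, fun ⟨y, hy⟩ => key _ _ (h y hy) h0 hy⟩

/-- Points of `ℤ^3`. -/
def v3 (x y z : ℤ) : Fin 3 → ℤ := ![x, y, z]

@[simp] theorem v3_0 (x y z : ℤ) : v3 x y z 0 = x := rfl
@[simp] theorem v3_1 (x y z : ℤ) : v3 x y z 1 = y := rfl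
@[simp] theorem v3_2 (x y z : ℤ) : v3 x y z 2 = z := rfl

theorem ext3 {a b : Fin 3 → ℤ} (h0 : a 0 = b 0) (h1 : a 1 = b 1) (h2 : a 2 = b 2) : a = b := by
  funext i
  fin_cases i
  · exact h0
  · exact h1
  · exact h2

theorem adj3 {a b : Fin 3 → ℤ} (h : |a 0 - b 0| + |a 1 - b 1| + |a 2 - b 2| = 1) :
    (grid 3).Adj a b := by
  change ∑ i, |a i - b i| = 1
  rw [Fin.sum_univ_three]
  exact h

theorem adj_x (w : Fin 3 → ℤ) (x y z : ℤ) : (grid 3).Adj (w + v3 x y z) (w + v3 (x + 1) y z) := by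
  apply adj3
  simp

theorem adj_y (w : Fin 3 → ℤ) (x y z : ℤ) : (grid 3).Adj (w + v3 x y z) (w + v3 x (y + 1) z) := by
  apply adj3
  simp

theorem adj_z (w : Fin 3 → ℤ) (x y z : ℤ) : (grid 3).Adj (w + v3 x y z) (w + v3 x y (z + 1)) := by
  apply adj3
  simp

end Vale.Agent.P043.H467
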