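import Vale.Agent.P043.H467.Rigid
import Vale.Agent.P043.H467.Grid

/-!
# P043: a connected open set from a grid-connected finite set of cells
-/

set_option autoImplicit false

namespace Vale.Agent.P043.H467.Eu

open MeasureTheory Vale.Agent.P043 Vale.Agent.P043.Eu Vale.Agent.P043.H467

variable {d : ℕ}

/-- open boxes -/
def Bx (lo hi : Fin d → ℝ) : Set (Fin d → ℝ) := {y | ∀ i, lo i < y i ∧ y i < hi i}

theorem Bx_eq (lo hi : Fin d → ℝ) : Bx lo hi = Set.univ.pi fun i => Set.Ioo (lo i) (hi i) := by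
  ext y
  simp only [Bx, Set.mem_ofPred_eq, Set.mem_pi, Set.mem_univ, Set.mem_Ioo, forall_const]

theorem Bx_open (lo hi : Fin d → ℝ) : IsOpen (Bx lo hi) := by
  rw [Bx_eq]
  exact isOpen_set_pi Set.finite_univ fun i _ => isOpen_Ioo

theorem Bx_convex (lo hi : Fin d → ℝ) : Convex ℝ (Bx lo hi) := by
  rw [Bx_eq]
  exact convex_pi fun i _ => convex_Ioo _ _

/-- the translate of a box -/
theorem Bx_sub (lo hi : Fin d → ℝ) (v : Fin d → ℝ) :
    {x | x - v ∈ Bx lo hi} = Bx (lo + v) (hi + v) := by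
  ext x
  simp only [Bx, Set.mem_ofPred_eq, Pi.sub_apply, Pi.add_apply]
  exact forall_congr' fun i => ⟨fun h => ⟨by linarith [h.1], by linarith [h.2]⟩,
    fun h => ⟨by linarith [h.1], by linarith [h.2]⟩⟩

/-- the pieces of the open set, relative to a cell: lower and upper corners -/
inductive Pc (d : ℕ) : Type
  | y : Pc d
  | v (i : Fin d) : Pc d
  | z (i k : Fin d) : Pc d
  | b (j : Fin d) : Pc d
  | g (j : Fin d) : Pc d

/-- lower corner -/
noncomputable def Pc.lo : Pc d → Fin d → ℝ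
  | .y => fun _ => 1 / 8
  | .v i => fun l => if l = i then 5 / 8 else 0
  | .z _ _ => fun _ => 0
  | .b j => fun l => if l = j then 3 / 4 else 1 / 2
  | .g _ => fun _ => 3 / 4

/-- upper corner -/
noncomputable def Pc.hi : Pc d → Fin d → ℝ
  | .y => fun _ => 1
  | .v _ => fun _ => 1
  | .z i k => fun l => if l = i ∨ l = k then 1 / 2 else 1
  | .b j => fun l => if l = j then 9 / 8 else 5 / 8
  | .g j => fun l => if l = j then 5 / 4 else 7 / 8

/-- admissible pieces of the cell `z` of `F` -/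
def Pc.ok (F : Finset (Fin d → ℤ)) (z : Fin d → ℤ) : Pc d → Prop
  | .y => True
  | .v _ => True
  | .z i k => i ≠ k
  | .b _ => True
  | .g j => z + Pi.single j 1 ∈ F

instance : Finite (Pc d) := by
  have e : Function.Surjective (fun s : Unit ⊕ (Fin d) ⊕ (Fin d × Fin d) ⊕ (Fin d) ⊕ (Fin d) =>
      match s with
      | .inl _ => (Pc.y : Pc d)
      | .inr (.inl i) => Pc.v i
      | .inr (.inr (.inl p)) => Pc.z p.1 p.2
      | .inr (.inr (.inr (.inl j))) => Pc.b j
      | .inr (.inr (.inr (.inr j))) => Pc.g j) := by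
    intro p
    cases p with
    | y => exact ⟨.inl (), rfl⟩
    | v i => exact ⟨.inr (.inl i), rfl⟩
    | z i k => exact ⟨.inr (.inr (.inl (i, k))), rfl⟩
    | b j => exact ⟨.inr (.inr (.inr (.inl j))), rfl⟩
    | g j => exact ⟨.inr (.inr (.inr (.inr j))), rfl⟩
  exact Finite.of_surjective _ e

/-- the open set of the finite set `F` of cells -/
def Op (F : Finset (Fin d → ℤ)) : Set (Fin d → ℝ) :=
  {x | ∃ z ∈ F, ∃ p : Pc d, p.ok F z ∧ x - iv z ∈ Bx p.lo p.hi}

theorem Op_open (F : Finset (Fin d → ℤ)) : IsOpen (Op F) := by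
  have e : Op F = ⋃ z ∈ F, ⋃ p : Pc d, ⋃ _ : p.ok F z, {x | x - iv z ∈ Bx p.lo p.hi} := by
    ext x
    simp only [Op, Set.mem_ofPred_eq, Set.mem_iUnion, exists_prop]
  rw [e]
  refine isOpen_biUnion fun z _ => isOpen_iUnion fun p => isOpen_iUnion fun _ => ?_
  rw [Bx_sub]
  exact Bx_open _ _

theorem segment_in (F : Finset (Fin d → ℤ)) {z : Fin d → ℤ} (hz : z ∈ F) (p : Pc d)
    (hp : p.ok F z) {x y : Fin d → ℝ} (hx : x - iv z ∈ Bx p.lo p.hi)
    (hy : y - iv z ∈ Bx p.lo p.hi) : JoinedIn (Op F) x y := by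
  refine JoinedIn.of_segment_subset ?_
  have hc := Bx_convex (p.lo + iv z) (p.hi + iv z)
  have hx' : x ∈ Bx (p.lo + iv z) (p.hi + iv z) := by rw [← Bx_sub]; exact hx
  have hy' : y ∈ Bx (p.lo + iv z) (p.hi + iv z) := by rw [← Bx_sub]; exact hy
  refine (hc.segment_subset hx' hy').trans ?_
  intro w hw
  rw [← Bx_sub] at hw
  exact ⟨z, hz, p, hp, hw⟩

/-- the centre of a cell (not the geometric centre) -/
noncomputable def ctr (z : Fin d → ℤ) : Fin d → ℝ := iv z + fun _ => 3 / 4

theorem ctr_mem (F : Finset (Fin d → ℤ)) {z : Fin d → ℤ} (hz : z ∈ F) : ctr z ∈ Op F := by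
  refine ⟨z, hz, .y, trivial, fun i => ?_⟩
  simp only [ctr, add_sub_cancel_left, Pc.lo, Pc.hi]
  constructor <;> norm_num

theorem joined_piece (F : Finset (Fin d → ℤ)) {z : Fin d → ℤ} (hz : z ∈ F) (p : Pc d)
    (hp : p.ok F z) {x : Fin d → ℝ} (hx : x - iv z ∈ Bx p.lo p.hi) : JoinedIn (Op F) (ctr z) x := by
  -- a point of the piece in the main piece `y`
  obtain ⟨q, hq1, hq2⟩ : ∃ q : Fin d → ℝ, q ∈ Bx p.lo p.hi ∧ q ∈ Bx (Pc.y : Pc d).lo (Pc.y : Pc d).hi := by
    cases p with
    | y => exact ⟨fun _ => 3 / 4, fun i => by simp only [Pc.lo, Pc.hi]; constructor <;> norm_num,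
        fun i => by simp only [Pc.lo, Pc.hi]; constructor <;> norm_num⟩
    | v i => exact ⟨fun _ => 3 / 4, fun l => by
          simp only [Pc.lo, Pc.hi]; split_ifs <;> constructor <;> norm_num,
        fun i => by simp only [Pc.lo, Pc.hi]; constructor <;> norm_num⟩
    | z i k => exact ⟨fun _ => 1 / 4, fun l => by
          simp only [Pc.lo, Pc.hi]; split_ifs <;> constructor <;> norm_num,
        fun i => by simp only [Pc.lo, Pc.hi]; constructor <;> norm_num⟩
    | b j => exact ⟨fun l => if l = j then 7 / 8 else 9 / 16, fun l => by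
          simp only [Pc.lo, Pc.hi]; split_ifs <;> constructor <;> norm_num,
        fun i => by simp only [Pc.lo, Pc.hi]; split_ifs <;> constructor <;> norm_num⟩
    | g j => exact ⟨fun l => 13 / 16, fun l => by
          simp only [Pc.lo, Pc.hi]; split_ifs <;> constructor <;> norm_num,
        fun i => by simp only [Pc.lo, Pc.hi]; constructor <;> norm_num⟩
  have h1 : JoinedIn (Op F) (iv z + q) x := by
    refine segment_in F hz p hp ?_ hx
    rw [add_sub_cancel_left]
    exact hq1
  have h2 : JoinedIn (Op F) (ctr z) (iv z + q) := by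
    refine segment_in F hz .y trivial ?_ ?_
    · rw [ctr, add_sub_cancel_left]
      exact fun i => by simp only [Pc.lo, Pc.hi]; constructor <;> norm_num
    · rw [add_sub_cancel_left]
      exact hq2
  exact h2.trans h1

theorem joined_next (F : Finset (Fin d → ℤ)) {z : Fin d → ℤ} (hz : z ∈ F) (j : Fin d)
    (hj : z + Pi.single j 1 ∈ F) : JoinedIn (Op F) (ctr z) (ctr (z + Pi.single j 1)) := by
  set q : Fin d → ℝ := fun l => if l = j then 19 / 16 else 13 / 16 with hq
  have h1 : JoinedIn (Op F) (ctr z) (iv z + q) := by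
    refine joined_piece F hz (.g j) hj ?_
    rw [add_sub_cancel_left]
    intro l
    simp only [Pc.lo, Pc.hi, hq]
    split_ifs <;> constructor <;> norm_num
  have h2 : JoinedIn (Op F) (ctr (z + Pi.single j 1)) (iv z + q) := by
    refine joined_piece F hj .y trivial ?_
    intro l
    have e : (iv z + q - iv (z + Pi.single j 1) : Fin d → ℝ) l = if l = j then 3 / 16 else 13 / 16 := by
      simp only [Pi.sub_apply, Pi.add_apply, iv, hq]
      by_cases h : l = j
      · subst h
        simp only [if_pos, Pi.single_eq_same]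
        push_cast
        ring
      · rw [Pi.single_eq_of_ne h, if_neg h, if_neg h]
        push_cast
        ring
    rw [e]
    simp only [Pc.lo, Pc.hi]
    split_ifs <;> constructor <;> norm_num
  exact h1.trans h2.symm

theorem adj_cases {a b : Fin d → ℤ} (h : (grid d).Adj a b) :
    ∃ j, b = a + Pi.single j 1 ∨ a = b + Pi.single j 1 := by
  have h : ∑ i, |a i - b i| = 1 := h
  obtain ⟨j, hj⟩ : ∃ j, a j - b j ≠ 0 := by
    by_contra hcon
    push Not at hcon
    rw [Finset.sum_eq_zero (fun i _ => by rw [hcon i, abs_zero])] at h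
    exact absurd h (by norm_num)
  have hs := Finset.add_sum_erase Finset.univ (fun i => |a i - b i|) (Finset.mem_univ j)
  rw [h] at hs
  have h1 : 1 ≤ |a j - b j| := Int.one_le_abs hj
  have h2 : ∀ i ∈ Finset.univ.erase j, |a i - b i| = 0 := by
    have h3 : ∑ i ∈ Finset.univ.erase j, |a i - b i| = 0 :=
      le_antisymm (by linarith) (Finset.sum_nonneg fun i _ => abs_nonneg _)
    exact (Finset.sum_eq_zero_iff_of_nonneg fun i _ => abs_nonneg _).1 h3
  have h4 : |a j - b j| = 1 := by
    rw [Finset.sum_eq_zero h2] at hs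
    linarith
  have h5 : ∀ i, i ≠ j → a i = b i := by
    intro i hi
    have := abs_eq_zero.1 (h2 i (Finset.mem_erase.2 ⟨hi, Finset.mem_univ i⟩))
    omega
  refine ⟨j, ?_⟩
  rcases (abs_eq (by norm_num)).1 h4 with h6 | h6
  · right
    funext i
    by_cases hi : i = j
    · subst hi
      rw [Pi.add_apply, Pi.single_eq_same]
      omega
    · rw [Pi.add_apply, Pi.single_eq_of_ne hi, add_zero, h5 i hi]
  · left
    funext i
    by_cases hi : i = j
    · subst hi
      rw [Pi.add_apply, Pi.single_eq_same]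
      omega
    · rw [Pi.add_apply, Pi.single_eq_of_ne hi, add_zero, h5 i hi]

theorem joined_rch (F : Finset (Fin d → ℤ)) {x y : Fin d → ℤ}
    (h : Rch (F : Set (Fin d → ℤ)) x y) (hx : x ∈ F) : JoinedIn (Op F) (ctr x) (ctr y) := by
  induction h with
  | refl => exact JoinedIn.refl (ctr_mem F hx)
  | @tail u w _ h2 ih =>
    refine ih.trans ?_
    obtain ⟨hu, hw, hadj⟩ := h2
    obtain ⟨j, rfl | rfl⟩ := adj_cases hadj
    · exact joined_next F (Finset.mem_coe.1 hu) j (Finset.mem_coe.1 hw)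
    · exact (joined_next F (Finset.mem_coe.1 hw) j (Finset.mem_coe.1 hu)).symm

theorem Op_connected (F : Finset (Fin d → ℤ)) {x0 : Fin d → ℤ} (h0 : x0 ∈ F)
    (h : ∀ x ∈ F, Rch (F : Set (Fin d → ℤ)) x0 x) : IsConnected (Op F) := by
  refine IsPathConnected.isConnected ⟨ctr x0, ctr_mem F h0, ?_⟩
  rintro x ⟨z, hz, p, hp, hx⟩
  exact (joined_rch F (h z hz) h0).trans (joined_piece F hz p hp hx)

end Vale.Agent.P043.H467.Eu
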