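import Mathlib.Analysis.Convex.Measure
import Vale.Agent.P043.H467.Open

/-!
# P043: the open connected set tiles like the cells
-/

set_option autoImplicit false

namespace Vale.Agent.P043.H467.Eu

open MeasureTheory Vale.Agent.P043 Vale.Agent.P043.Eu Vale.Agent.P043.H467

variable {d : ℕ}

/-- the union of the cells -/
def Cells (F : Finset (Fin d → ℤ)) : Set (Fin d → ℝ) := {x | ∃ z ∈ F, x - iv z ∈ RF d}

theorem exists_ne (hd : 2 ≤ d) (j : Fin d) : ∃ i : Fin d, i ≠ j := by
  by_cases h : j = ⟨0, by omega⟩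
  · refine ⟨⟨1, by omega⟩, ?_⟩
    rw [h]
    intro e
    have := congrArg Fin.val e
    simp at this
  · exact ⟨⟨0, by omega⟩, fun e => h e.symm⟩

/-- `Op F` is contained in the union of the cells -/
theorem Op_subset (hd : 2 ≤ d) (F : Finset (Fin d → ℤ)) : Op F ⊆ Cells F := by
  rintro x ⟨z, hz, p, hp, hx⟩
  cases p with
  | y =>
    simp only [Bx, Pc.lo, Pc.hi, Set.mem_ofPred_eq] at hx
    refine ⟨z, hz, Or.inl ⟨fun i => ⟨by linarith [(hx i).1], (hx i).2⟩, fun j hj => ?_⟩⟩
    have h1 := hj j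
    unfold corF at h1
    rw [if_pos rfl] at h1
    linarith [(hx j).1, h1.2]
  | v i =>
    simp only [Bx, Pc.lo, Pc.hi, Set.mem_ofPred_eq] at hx
    refine ⟨z, hz, Or.inl ⟨fun l => ⟨?_, (hx l).2⟩, fun j => not_mem_QF_of_Gd (i := i) (Or.inr ?_) j⟩⟩
    · have := (hx l).1
      split_ifs at this <;> linarith
    · have := (hx i).1
      rwa [if_pos rfl] at this
  | z i k =>
    simp only [Bx, Pc.lo, Pc.hi, Set.mem_ofPred_eq] at hx
    refine ⟨z, hz, Or.inl ⟨fun l => ⟨(hx l).1.le, ?_⟩, fun j => not_mem_QF_of_Av (i := i) (k := k) hp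
      (Or.inr (Or.inr ⟨?_, ?_⟩)) j⟩⟩
    · have := (hx l).2
      split_ifs at this <;> linarith
    · have := (hx i).2
      rwa [if_pos (Or.inl rfl)] at this
    · have := (hx k).2
      rwa [if_pos (Or.inr rfl)] at this
  | b j =>
    simp only [Bx, Pc.lo, Pc.hi, Set.mem_ofPred_eq] at hx
    have hj := hx j
    rw [if_pos rfl, if_pos rfl] at hj
    have ho : ∀ l, l ≠ j → 1 / 2 < (x - iv z) l ∧ (x - iv z) l < 5 / 8 := by
      intro l hl
      have := hx l
      rwa [if_neg hl, if_neg hl] at this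
    rcases lt_or_ge ((x - iv z) j) 1 with h1 | h1
    · refine ⟨z, hz, Or.inl ⟨fun l => ?_, fun k => not_mem_QF_of_Gd (i := j) (Or.inr (by linarith)) k⟩⟩
      by_cases hl : l = j
      · subst hl
        exact ⟨by linarith, h1⟩
      · exact ⟨by linarith [(ho l hl).1], by linarith [(ho l hl).2]⟩
    · refine ⟨z, hz, Or.inr ⟨j, fun l => ?_⟩⟩
      by_cases hl : l = j
      · subst hl
        rw [Pi.sub_apply, corF_self]
        simp only [ev, Pi.single_eq_same]
        constructor <;> linarith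
      · rw [Pi.sub_apply, corF_ne hl]
        simp only [ev, Pi.single_eq_of_ne hl]
        constructor <;> linarith [(ho l hl).1, (ho l hl).2]
  | g j =>
    simp only [Bx, Pc.lo, Pc.hi, Set.mem_ofPred_eq] at hx
    have hj := hx j
    rw [if_pos rfl] at hj
    have ho : ∀ l, l ≠ j → 3 / 4 < (x - iv z) l ∧ (x - iv z) l < 7 / 8 := by
      intro l hl
      have := hx l
      rwa [if_neg hl] at this
    obtain ⟨i, hi⟩ := exists_ne hd j
    rcases lt_or_ge ((x - iv z) j) 1 with h1 | h1
    · refine ⟨z, hz, Or.inl ⟨fun l => ?_, fun k => not_mem_QF_of_Gd (i := j) (Or.inr (by linarith)) k⟩⟩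
      by_cases hl : l = j
      · subst hl
        exact ⟨by linarith, h1⟩
      · exact ⟨by linarith [(ho l hl).1], by linarith [(ho l hl).2]⟩
    · have e : ∀ l, (x - iv (z + Pi.single j 1) : Fin d → ℝ) l =
          (x - iv z) l - if l = j then 1 else 0 := by
        intro l
        simp only [Pi.sub_apply, iv, Pi.add_apply]
        by_cases hl : l = j
        · subst hl
          rw [Pi.single_eq_same, if_pos rfl]
          push_cast
          ring
        · rw [Pi.single_eq_of_ne hl, if_neg hl]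
          push_cast
          ring
      refine ⟨z + Pi.single j 1, hp, Or.inl ⟨fun l => ?_,
        fun k => not_mem_QF_of_Gd (i := i) (Or.inr ?_) k⟩⟩
      · rw [e]
        by_cases hl : l = j
        · subst hl
          rw [if_pos rfl]
          constructor <;> linarith
        · rw [if_neg hl]
          constructor <;> linarith [(ho l hl).1, (ho l hl).2]
      · rw [e, if_neg hi]
        linarith [(ho i hi).1]

/-- generic points -/
def Gen (x : Fin d → ℝ) : Prop := ∀ i, ∀ n : ℤ, 8 * x i ≠ n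

theorem ae_gen : ∀ᵐ x : Fin d → ℝ, Gen x := by
  unfold Gen
  rw [ae_all_iff]
  intro i
  rw [ae_all_iff]
  intro n
  have h : volume {x : Fin d → ℝ | x i = n / 8} = 0 := by
    rw [volume_pi]
    exact Measure.pi_hyperplane _ i _
  rw [ae_iff]
  refine measure_mono_null ?_ h
  intro x hx
  simp only [ne_eq, not_not, Set.mem_ofPred_eq] at hx ⊢
  linarith

theorem Gen.sub {x : Fin d → ℝ} (h : Gen x) (z : Fin d → ℤ) : Gen (x - iv z) := by
  intro i n hn
  apply h i (n + 8 * z i)
  simp only [Pi.sub_apply, iv] at hn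
  push_cast
  linarith

/-- generic points of the cells are in `Op F` -/
theorem mem_Op_of_gen (F : Finset (Fin d → ℤ)) {x : Fin d → ℝ} (hx : Gen x) (h : x ∈ Cells F) :
    x ∈ Op F := by
  obtain ⟨z, hz, h⟩ := h
  have hg := hx.sub z
  set y := x - iv z with hy
  have hne : ∀ (i : Fin d) (n : ℤ), y i ≠ n / 8 := by
    intro i n e
    exact hg i n (by rw [e]; ring)
  rcases h with ⟨hC, hQ⟩ | ⟨j, hj⟩
  · have hpos : ∀ i, 0 < y i := by
      intro i
      refine lt_of_le_of_ne (hC i).1 ?_
      have := hne i 0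
      norm_num at this
      exact fun e => this e.symm
    by_cases h1 : ∀ i, 1 / 8 < y i
    · exact ⟨z, hz, .y, trivial, fun i => ⟨h1 i, (hC i).2⟩⟩
    · push Not at h1
      obtain ⟨k, hk⟩ := h1
      have hk' : y k < 1 / 8 := by
        refine lt_of_le_of_ne hk ?_
        have := hne k 1
        intro e
        exact this (by rw [e, Int.cast_one])
      by_cases h2 : ∃ i, i ≠ k ∧ y i < 1 / 2
      · obtain ⟨i, hik, hi⟩ := h2
        refine ⟨z, hz, .z i k, hik, fun l => ⟨hpos l, ?_⟩⟩
        simp only [Pc.hi]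
        split_ifs with hl
        · rcases hl with rfl | rfl
          · exact hi
          · linarith
        · exact (hC l).2
      · push Not at h2
        have h3 : ∃ l, l ≠ k ∧ 5 / 8 ≤ y l := by
          by_contra hcon
          push Not at hcon
          apply hQ k
          intro l
          by_cases hl : l = k
          · subst hl
            rw [corF_self]
            exact ⟨(hC l).1, by linarith⟩
          · rw [corF_ne hl]
            exact ⟨h2 l hl, by linarith [hcon l hl]⟩
        obtain ⟨l, hl, hl'⟩ := h3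
        have hl'' : 5 / 8 < y l := by
          refine lt_of_le_of_ne hl' ?_
          have := hne l 5
          intro e
          exact this (by rw [← e]; norm_num)
        refine ⟨z, hz, .v l, trivial, fun m => ⟨?_, (hC m).2⟩⟩
        simp only [Pc.lo]
        split_ifs with hm
        · rw [hm]; exact hl''
        · exact hpos m
  · refine ⟨z, hz, .b j, trivial, fun l => ?_⟩
    have h1 := hj l
    simp only [Pc.lo, Pc.hi]
    by_cases hl : l = j
    · subst hl
      rw [Pi.sub_apply, corF_self] at h1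
      simp only [ev, Pi.single_eq_same] at h1
      rw [if_pos rfl, if_pos rfl]
      constructor <;> linarith
    · rw [Pi.sub_apply, corF_ne hl] at h1
      simp only [ev, Pi.single_eq_of_ne hl, sub_zero] at h1
      rw [if_neg hl, if_neg hl]
      refine ⟨lt_of_le_of_ne h1.1 ?_, by linarith⟩
      have := hne l 4
      intro e
      have e' : y l = 1 / 2 := e.symm
      exact this (by rw [e']; norm_num)

theorem null_diff (F : Finset (Fin d → ℤ)) : volume (Cells F \ Op F) = 0 := by
  refine measure_mono_null ?_ (ae_iff.1 (ae_gen (d := d)))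
  intro x hx hg
  exact hx.2 (mem_Op_of_gen F hg hx.1)

theorem tiles_down (hd : 2 ≤ d) (F : Finset (Fin d → ℤ)) {A : Set (Fin d → ℝ)}
    (h : TilesAE (Op F) A) : TilesAE (Cells F) A := by
  obtain ⟨h1, h2⟩ := h
  refine ⟨measure_mono_null ?_ h1, fun a ha b hb hab => ?_⟩
  · apply Set.compl_subset_compl.2
    exact Set.iUnion₂_mono fun a _ x hx => Op_subset hd F hx
  · have h3 := h2 a ha b hb hab
    have h4 : ∀ a : Fin d → ℝ, volume {x | x - a ∈ Cells F \ Op F} = 0 := by
      intro a
      rw [vol_shift]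
      exact null_diff F
    refine measure_mono_null ?_ (measure_union_null h3 (measure_union_null (h4 a) (h4 b)))
    rintro x ⟨hx, hx'⟩
    by_cases ha' : x - a ∈ Op F
    · by_cases hb' : x - b ∈ Op F
      · exact Or.inl ⟨ha', hb'⟩
      · exact Or.inr (Or.inr ⟨hx', hb'⟩)
    · exact Or.inr (Or.inl ⟨hx, ha'⟩)

theorem tiles_up (hd : 2 ≤ d) (F : Finset (Fin d → ℤ)) {A : Set (Fin d → ℝ)} (hA : A.Countable)
    (h : TilesAE (Cells F) A) : TilesAE (Op F) A := by
  obtain ⟨h1, h2⟩ := h
  refine ⟨?_, fun a ha b hb hab => ?_⟩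
  · have h4 : volume (⋃ a ∈ A, {x | x - a ∈ Cells F \ Op F}) = 0 := by
      rw [measure_biUnion_null_iff hA]
      intro a _
      rw [vol_shift]
      exact null_diff F
    refine measure_mono_null ?_ (measure_union_null h1 h4)
    intro x hx
    by_cases hx' : x ∈ ⋃ a ∈ A, {x | x - a ∈ Cells F}
    · right
      rw [Set.mem_iUnion₂] at hx' ⊢
      obtain ⟨a, ha, hxa⟩ := hx'
      refine ⟨a, ha, hxa, fun h => hx ?_⟩
      rw [Set.mem_iUnion₂]
      exact ⟨a, ha, h⟩
    · exact Or.inl hx'
  · refine measure_mono_null ?_ (h2 a ha b hb hab)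
    rintro x ⟨hx, hx'⟩
    exact ⟨Op_subset hd F hx, Op_subset hd F hx'⟩

theorem Cells_bounded (F : Finset (Fin d → ℤ)) : Bornology.IsBounded (Cells F) := by
  have e : Cells F = ⋃ z ∈ F, {x | x - iv z ∈ RF d} := by
    ext x; simp only [Cells, Set.mem_ofPred_eq, Set.mem_iUnion, exists_prop]
  rw [e, Bornology.isBounded_biUnion_finset]
  intro z _
  have h1 := (RF_bounded (d := d)).add (Bornology.isBounded_singleton (x := iv z))
  refine h1.subset ?_
  intro x hx
  exact ⟨x - iv z, hx, iv z, rfl, by simp⟩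

theorem frontier_iUnion_null {ι : Type} [Finite ι] (s : ι → Set (Fin d → ℝ))
    (h : ∀ i, volume (frontier (s i)) = 0) : volume (frontier (⋃ i, s i)) = 0 := by
  have : Countable ι := Finite.to_countable
  refine measure_mono_null (t := ⋃ i, frontier (s i)) ?_ (measure_iUnion_null h)
  rintro x ⟨h1, h2⟩
  rw [closure_iUnion_of_finite, Set.mem_iUnion] at h1
  obtain ⟨i, hi⟩ := h1
  rw [Set.mem_iUnion]
  exact ⟨i, hi, fun h3 => h2 (interior_mono (Set.subset_iUnion s i) h3)⟩

theorem Op_frontier (F : Finset (Fin d → ℤ)) : volume (frontier (Op F)) = 0 := by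
  have e : Op F = ⋃ q : {q : F × Pc d // q.2.ok F q.1},
      {x | x - iv (q.1.1 : Fin d → ℤ) ∈ Bx q.1.2.lo q.1.2.hi} := by
    ext x
    simp only [Op, Set.mem_ofPred_eq, Set.mem_iUnion]
    constructor
    · rintro ⟨z, hz, p, hp, hx⟩
      exact ⟨⟨(⟨z, hz⟩, p), hp⟩, hx⟩
    · rintro ⟨⟨⟨⟨z, hz⟩, p⟩, hp⟩, hx⟩
      exact ⟨z, hz, p, hp, hx⟩
  rw [e]
  refine frontier_iUnion_null _ fun q => ?_
  rw [Bx_sub]
  exact Convex.addHaar_frontier volume (Bx_convex _ _)

/-- conversion to parametrized tiles -/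
theorem aperSys_of_isTiling {F : Finset (Fin d → ℤ)} (h1 : ∃ A : Set (Fin d → ℤ), IsTiling A F)
    (h2 : ∀ A : Set (Fin d → ℤ), IsTiling A F → ¬ IsPeriodic A) :
    AperSys {(fun p : F => (p : Fin d → ℤ))} := by
  constructor
  · obtain ⟨A, hA⟩ := h1
    refine ⟨A, ?_⟩
    rintro τ rfl g
    obtain ⟨⟨a, f⟩, ⟨ha, hf, haf⟩, hu⟩ := hA g
    simp only at ha hf haf
    refine ⟨⟨f, hf⟩, ?_, ?_⟩
    · change g - f ∈ A
      rw [← haf, add_sub_cancel_right]
      exact ha
    · rintro ⟨f', hf'⟩ hp'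
      have h3 := hu (g - f', f') ⟨hp', hf', sub_add_cancel _ _⟩
      rw [Prod.mk.injEq] at h3
      exact Subtype.ext h3.2
  · rintro ⟨A, ⟨Λ, hΛ, hA⟩, hs⟩
    have hs := hs _ rfl
    refine h2 A ?_ ⟨Λ, hΛ, ?_⟩
    · intro g
      obtain ⟨⟨f, hf⟩, hp, hu⟩ := hs g
      change g - f ∈ A at hp
      refine ⟨(g - f, f), ⟨hp, hf, sub_add_cancel _ _⟩, ?_⟩
      rintro ⟨a, f'⟩ ⟨ha, hf', haf⟩
      simp only at ha hf' haf
      have h3 := hu ⟨f', hf'⟩ (by
        change g - f' ∈ A
        rw [← haf, add_sub_cancel_right]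
        exact ha)
      have h4 : f' = f := congrArg Subtype.val h3
      subst h4
      rw [← haf, add_sub_cancel_right]
    · intro h hh
      ext x
      constructor
      · rintro ⟨w, hw, rfl⟩
        exact (hA h hh w).2 hw
      · intro hx
        refine ⟨x - h, ?_, sub_add_cancel _ _⟩
        have := hA h hh (x - h)
        rw [sub_add_cancel] at this
        exact this.1 hx

/-- A connected finite tile of `ℤ^d` without periodic tilings gives a bounded connected open set of
`ℝ^d` which tiles, but only aperiodically. -/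
theorem euclid_connected (hd : 2 ≤ d) {F : Finset (Fin d → ℤ)}
    (hF : ∀ x ∈ F, ∀ y ∈ F, Rch (F : Set (Fin d → ℤ)) x y) (hne : F.Nonempty)
    (h1 : ∃ A : Set (Fin d → ℤ), IsTiling A F)
    (h2 : ∀ A : Set (Fin d → ℤ), IsTiling A F → ¬ IsPeriodic A) :
    ∃ Om : Set (Fin d → ℝ), IsOpen Om ∧ IsConnected Om ∧ Bornology.IsBounded Om ∧
      volume (frontier Om) = 0 ∧ (∃ A : Set (Fin d → ℝ), TilesAE Om A) ∧
      ∀ A : Set (Fin d → ℝ), TilesAE Om A → ¬ LatticePeriodic A := by
  obtain ⟨x0, hx0⟩ := hne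
  have hcells : Cells F = {x | ∃ p : F, x - iv (p : Fin d → ℤ) ∈ RF d} := by
    ext x
    simp only [Cells, Set.mem_ofPred_eq, Subtype.exists, exists_prop]
  obtain ⟨⟨A0, hA0, hA0'⟩, hno⟩ := euclid_explicit hd (fun p : F => (p : Fin d → ℤ))
    (aperSys_of_isTiling h1 h2)
  rw [← hcells] at hA0'
  refine ⟨Op F, Op_open F, Op_connected F hx0 fun x hx => hF x0 hx0 x hx,
    (Cells_bounded F).subset (Op_subset hd F), Op_frontier F, ⟨A0, tiles_up hd F hA0 hA0'⟩, ?_⟩
  intro A hA
  have := tiles_down hd F hA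
  rw [hcells] at this
  exact hno A this

end Vale.Agent.P043.H467.Eu
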