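import Vale.Agent.P043.H467.Three
import Vale.Agent.P043.H467.Fin
import Vale.Agent.P043.Bdl.B2

/-!
# P043: connected tiles without periodic tilings, in every dimension `d ≥ 3`
-/

set_option autoImplicit false

namespace Vale.Agent.P043.H467

open Vale.Agent.P043 MeasureTheory

theorem discrete_connected (d : ℕ) (hd : 3 ≤ d) :
    ∃ F : Finset (Fin d → ℤ), F.Nonempty ∧ ((grid d).induce (F : Set (Fin d → ℤ))).Connected ∧
      (∃ A : Set (Fin d → ℤ), IsTiling A F) ∧
      ∀ A : Set (Fin d → ℤ), IsTiling A F → ¬ IsPeriodic A := by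
  obtain ⟨F, hne, h1, h2⟩ := Vale.Agent.P043.Z.ptc_fails3 3 le_rfl
  exact connected_all hne h1 h2 d hd

theorem euclid_connected_all (d : ℕ) (hd : 3 ≤ d) :
    ∃ Om : Set (Fin d → ℝ), IsOpen Om ∧ IsConnected Om ∧ Bornology.IsBounded Om ∧
      volume (frontier Om) = 0 ∧ (∃ A : Set (Fin d → ℝ), Vale.Agent.P043.Eu.TilesAE Om A) ∧
      ∀ A : Set (Fin d → ℝ), Vale.Agent.P043.Eu.TilesAE Om A →
        ¬ Vale.Agent.P043.Eu.LatticePeriodic A := by
  obtain ⟨F, hne, hc, h1, h2⟩ := discrete_connected d hd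
  exact Eu.euclid_connected (by omega)
    (fun x hx y hy => rch_of_connected hc (Finset.mem_coe.2 hx) (Finset.mem_coe.2 hy)) hne h1 h2

end Vale.Agent.P043.H467
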