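import Vale.Agent.P043.Defs

/-!
# P043: transfer of tilings along a transversal

`φ : G → G'` a homomorphism, `D` a finite set such that every `c : G'` is `φ v + d` in exactly one
way.  If `F` tiles `G`, then `φ(F) + D` tiles `G'`; a periodic tiling by `φ(F) + D` gives a periodic
tiling by `F`.
-/

set_option autoImplicit false

namespace Vale.Agent.P043.H467

open Vale.Agent.P043

variable {G G' : Type} [AddCommGroup G] [AddCommGroup G']

theorem comap_finiteIndex (φ : G →+ G') (L : AddSubgroup G') (hL : L.FiniteIndex) :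
    (L.comap φ).FiniteIndex := by
  refine ⟨?_⟩
  rw [AddSubgroup.index_comap]
  have : L.IsFiniteRelIndex φ.range := AddSubgroup.isFiniteRelIndex_of_finiteIndex
  exact AddSubgroup.relIndex_ne_zero

/-- `D` is a transversal of the image of `φ`, with `φ` injective: every `c` is `φ v + d` in exactly
one way. -/
def Transv (φ : G →+ G') (D : Finset G') : Prop :=
  ∀ c : G', ∃! p : G × G', p.2 ∈ D ∧ φ p.1 + p.2 = c

theorem Transv.eq {φ : G →+ G'} {D : Finset G'} (h : Transv φ D) {v v' : G} {d d' : G'}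
    (hd : d ∈ D) (hd' : d' ∈ D) (e : φ v + d = φ v' + d') : v = v' ∧ d = d' := by
  have := (h (φ v' + d')).unique (y₁ := (v, d)) (y₂ := (v', d')) ⟨hd, e⟩ ⟨hd', rfl⟩
  exact ⟨congrArg Prod.fst this, congrArg Prod.snd this⟩

theorem tiling_up {φ : G →+ G'} {D : Finset G'} (h : Transv φ D) {F : Finset G} {F' : Finset G'}
    (hF' : ∀ c, c ∈ F' ↔ ∃ f ∈ F, ∃ d ∈ D, φ f + d = c) {A : Set G} (hA : IsTiling A F) :
    IsTiling (φ '' A) F' := by
  intro c
  obtain ⟨⟨v, d⟩, ⟨hd, hv⟩, -⟩ := h c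
  simp only at hd hv
  obtain ⟨⟨a, f⟩, ⟨ha, hf, haf⟩, hu⟩ := hA v
  simp only at ha hf haf
  refine ⟨(φ a, φ f + d), ⟨⟨a, ha, rfl⟩, (hF' _).2 ⟨f, hf, d, hd, rfl⟩, ?_⟩, ?_⟩
  · simp only
    rw [← hv, ← haf, map_add, add_assoc]
  · rintro ⟨_, c'⟩ ⟨⟨a', ha', rfl⟩, hc', e⟩
    simp only at hc' e
    obtain ⟨f', hf', d', hd', rfl⟩ := (hF' _).1 hc'
    have e' : φ (a' + f') + d' = φ v + d := by rw [hv, ← e, map_add, add_assoc]
    obtain ⟨e1, e2⟩ := h.eq hd' hd e'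
    have := hu (a', f') ⟨ha', hf', e1⟩
    rw [Prod.mk.injEq] at this
    rw [this.1, this.2, e2]

theorem tiling_down {φ : G →+ G'} {D : Finset G'} (h : Transv φ D) {F : Finset G} {F' : Finset G'}
    (hF' : ∀ c, c ∈ F' ↔ ∃ f ∈ F, ∃ d ∈ D, φ f + d = c) {A' : Set G'} (hA : IsTiling A' F') :
    IsTiling {v : G | ∃ d ∈ D, ∃ a ∈ A', φ v = a + d} F := by
  intro v
  obtain ⟨⟨a, c⟩, ⟨ha, hc, e⟩, hu⟩ := hA (φ v)
  simp only at ha hc e
  obtain ⟨f, hf, d, hd, rfl⟩ := (hF' _).1 hc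
  refine ⟨(v - f, f), ⟨⟨d, hd, a, ha, ?_⟩, hf, sub_add_cancel _ _⟩, ?_⟩
  · simp only [map_sub]
    rw [← e]
    abel
  · rintro ⟨v', f'⟩ ⟨⟨d', hd', a', ha', e'⟩, hf', e''⟩
    simp only at e' hf' e''
    have h1 := hu (a', φ f' + d') ⟨ha', (hF' _).2 ⟨f', hf', d', hd', rfl⟩, by
      simp only
      rw [← e'', map_add, e']
      abel⟩
    rw [Prod.mk.injEq] at h1
    obtain ⟨-, h2⟩ := h1
    obtain ⟨h3, -⟩ := h.eq hd' hd h2
    subst h3
    rw [← e'', add_sub_cancel_right]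

theorem periodic_down {φ : G →+ G'} {D : Finset G'} {A' : Set G'} (hA : IsPeriodic A') :
    IsPeriodic {v : G | ∃ d ∈ D, ∃ a ∈ A', φ v = a + d} := by
  obtain ⟨L, hL, hA⟩ := hA
  have key : ∀ h ∈ L, ∀ a, a + h ∈ A' ↔ a ∈ A' := by
    intro h hh a
    constructor
    · intro ha
      have h1 : -h ∈ L := L.neg_mem hh
      have h2 : (a + h) + -h ∈ (fun a => a + -h) '' A' := ⟨_, ha, rfl⟩
      rw [hA _ h1] at h2
      simpa using h2
    · intro ha
      have h2 : a + h ∈ (fun a => a + h) '' A' := ⟨_, ha, rfl⟩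
      rwa [hA _ hh] at h2
  refine ⟨L.comap φ, comap_finiteIndex φ L hL, ?_⟩
  intro h hh
  rw [AddSubgroup.mem_comap] at hh
  have key2 : ∀ v, (∃ d ∈ D, ∃ a ∈ A', φ v = a + d) → (∃ d ∈ D, ∃ a ∈ A', φ (v + h) = a + d) := by
    rintro v ⟨d, hd, a, ha, e⟩
    refine ⟨d, hd, a + φ h, (key _ hh a).2 ha, ?_⟩
    rw [map_add, e]
    abel
  have key3 : ∀ v, (∃ d ∈ D, ∃ a ∈ A', φ v = a + d) → (∃ d ∈ D, ∃ a ∈ A', φ (v - h) = a + d) := by
    rintro v ⟨d, hd, a, ha, e⟩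
    refine ⟨d, hd, a - φ h, ?_, ?_⟩
    · have h1 := key _ (L.neg_mem hh) a
      rw [sub_eq_add_neg]
      exact h1.2 ha
    · rw [map_sub, e]
      abel
  ext v
  simp only [Set.mem_image, Set.mem_ofPred_eq]
  constructor
  · rintro ⟨w, hw, rfl⟩
    exact key2 w hw
  · intro hv
    exact ⟨v - h, key3 v hv, sub_add_cancel _ _⟩

/-- A tile without periodic tilings gives, by `φ(F) + D`, a tile without periodic tilings. -/
theorem transfer {φ : G →+ G'} {D : Finset G'} (h : Transv φ D) {F : Finset G} {F' : Finset G'}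
    (hF' : ∀ c, c ∈ F' ↔ ∃ f ∈ F, ∃ d ∈ D, φ f + d = c) (h1 : ∃ A : Set G, IsTiling A F)
    (h2 : ∀ A : Set G, IsTiling A F → ¬ IsPeriodic A) :
    (∃ A : Set G', IsTiling A F') ∧ ∀ A : Set G', IsTiling A F' → ¬ IsPeriodic A := by
  obtain ⟨A, hA⟩ := h1
  refine ⟨⟨_, tiling_up h hF' hA⟩, ?_⟩
  intro A' hA' hper
  exact h2 _ (tiling_down h hF' hA') (periodic_down hper)

/-- Extension from a subgroup with complement: `ι : G → G'` with retraction `π`. -/
theorem transfer_embed (ι : G →+ G') (π : G' →+ G) (hπ : ∀ v, π (ι v) = v) {F : Finset G}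
    {F' : Finset G'} (hF' : ∀ c, c ∈ F' ↔ ∃ f ∈ F, ι f = c) (h1 : ∃ A : Set G, IsTiling A F)
    (h2 : ∀ A : Set G, IsTiling A F → ¬ IsPeriodic A) :
    (∃ A : Set G', IsTiling A F') ∧ ∀ A : Set G', IsTiling A F' → ¬ IsPeriodic A := by
  have hinj : ∀ v w, ι v = ι w → v = w := by
    intro v w e
    rw [← hπ v, ← hπ w, e]
  constructor
  · obtain ⟨A, hA⟩ := h1
    refine ⟨π ⁻¹' A, ?_⟩
    intro c
    obtain ⟨⟨a, f⟩, ⟨ha, hf, haf⟩, hu⟩ := hA (π c)
    simp only at ha hf haf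
    refine ⟨(c - ι f, ι f), ⟨?_, (hF' _).2 ⟨f, hf, rfl⟩, sub_add_cancel _ _⟩, ?_⟩
    · change π (c - ι f) ∈ A
      rw [map_sub, hπ, ← haf, add_sub_cancel_right]
      exact ha
    · rintro ⟨x, y⟩ ⟨hx, hy, e⟩
      simp only at hx hy e
      obtain ⟨f', hf', rfl⟩ := (hF' _).1 hy
      have h3 := hu (π x, f') ⟨hx, hf', by simp only; rw [← e, map_add, hπ]⟩
      rw [Prod.mk.injEq] at h3
      rw [← h3.2, ← e, add_sub_cancel_right]
  · intro A' hA' hper
    obtain ⟨L, hL, hA⟩ := hper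
    have key : ∀ h ∈ L, ∀ a, a + h ∈ A' ↔ a ∈ A' := by
      intro h hh a
      constructor
      · intro ha
        have h1 : -h ∈ L := L.neg_mem hh
        have h2 : (a + h) + -h ∈ (fun a => a + -h) '' A' := ⟨_, ha, rfl⟩
        rw [hA _ h1] at h2
        simpa using h2
      · intro ha
        have h2 : a + h ∈ (fun a => a + h) '' A' := ⟨_, ha, rfl⟩
        rwa [hA _ hh] at h2
    refine h2 (ι ⁻¹' A') ?_ ⟨L.comap ι, comap_finiteIndex ι L hL, ?_⟩
    · intro v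
      obtain ⟨⟨a, c⟩, ⟨ha, hc, e⟩, hu⟩ := hA' (ι v)
      simp only at ha hc e
      obtain ⟨f, hf, rfl⟩ := (hF' _).1 hc
      refine ⟨(v - f, f), ⟨?_, hf, sub_add_cancel _ _⟩, ?_⟩
      · change ι (v - f) ∈ A'
        rw [map_sub, ← e, add_sub_cancel_right]
        exact ha
      · rintro ⟨x, f'⟩ ⟨hx, hf', e'⟩
        simp only at hx hf' e'
        have h3 := hu (ι x, ι f') ⟨hx, (hF' _).2 ⟨f', hf', rfl⟩, by
          simp only; rw [← map_add, e']⟩
        rw [Prod.mk.injEq] at h3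
        have h4 := hinj _ _ h3.2
        subst h4
        rw [← e', add_sub_cancel_right]
    · intro h hh
      rw [AddSubgroup.mem_comap] at hh
      ext v
      simp only [Set.mem_image, Set.mem_preimage]
      constructor
      · rintro ⟨w, hw, rfl⟩
        rw [map_add]
        exact (key _ hh _).2 hw
      · intro hv
        refine ⟨v - h, ?_, sub_add_cancel _ _⟩
        have h5 := key _ hh (ι (v - h))
        rw [← map_add, sub_add_cancel] at h5
        exact h5.1 hv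

end Vale.Agent.P043.H467
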