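import Vale.Agent.P043.H467.Grid
import Vale.Agent.P043.H467.Transfer

/-!
# P043: thin plates with one arm

`N = 2B`, `H = β B² + 1`.  The lattice `L = {(x,y,z) : N ∣ x - 2y, H ∣ z - βy}` is the image of
`φ f = (2 f₀, f₀ + B f₁ + B² f₂, β f₀ + βB f₁ - f₂)`.  The plate `[0,N) × {0} × [0,H)` is a
fundamental domain of `L`.  The cells congruent to `(2x₁, k, z₀)`, `1 ≤ k < T`, are removed from the
plate and replaced by these cells (the arm).
-/

set_option autoImplicit false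

namespace Vale.Agent.P043.H467

open Vale.Agent.P043

variable (B β T x1 z0 : ℤ)

/-- The embedding of `ℤ^3` onto the lattice `L`. -/
def phi : (Fin 3 → ℤ) →+ (Fin 3 → ℤ) where
  toFun f := v3 (2 * f 0) (f 0 + B * f 1 + B ^ 2 * f 2) (β * f 0 + β * B * f 1 - f 2)
  map_zero' := by
    apply ext3 <;> simp
  map_add' f g := by
    apply ext3 <;> simp only [v3_0, v3_1, v3_2, Pi.add_apply] <;> ring

theorem phi_apply (f : Fin 3 → ℤ) :
    phi B β f = v3 (2 * f 0) (f 0 + B * f 1 + B ^ 2 * f 2) (β * f 0 + β * B * f 1 - f 2) := rfl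

theorem phi_surj {x y z : ℤ} (h1 : 2 * B ∣ x - 2 * y) (h2 : β * B ^ 2 + 1 ∣ z - β * y) :
    ∃ v, phi B β v = v3 x y z := by
  obtain ⟨a, ha⟩ := h1
  obtain ⟨b, hb⟩ := h2
  refine ⟨v3 (y + B * a) (-a + B * b) (-b), ?_⟩
  rw [phi_apply]
  apply ext3 <;> simp only [v3_0, v3_1, v3_2]
  · linarith
  · ring
  · have : z = β * y + (β * B ^ 2 + 1) * b := by linarith
    rw [this]; ring

theorem phi_inj (hB : 1 ≤ B) (hβ : 1 ≤ β) {v w : Fin 3 → ℤ} (h : phi B β v = phi B β w) :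
    v = w := by
  rw [phi_apply, phi_apply] at h
  have h0 := congrFun h 0
  have h1 := congrFun h 1
  have h2 := congrFun h 2
  simp only [v3_0, v3_1, v3_2] at h0 h1 h2
  have e0 : v 0 = w 0 := by linarith
  rw [e0] at h1 h2
  have e1 : B * (v 1 - w 1 + B * (v 2 - w 2)) = 0 := by linear_combination h1
  have e1' : v 1 - w 1 + B * (v 2 - w 2) = 0 := by
    rcases mul_eq_zero.1 e1 with h | h
    · omega
    · exact h
  have e2 : (β * B ^ 2 + 1) * (v 2 - w 2) = 0 := by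
    linear_combination (-1 : ℤ) * h2 + β * B * e1'
  have hpos : 0 < β * B ^ 2 + 1 := by positivity
  have e2' : v 2 - w 2 = 0 := by
    rcases mul_eq_zero.1 e2 with h | h
    · omega
    · exact h
  rw [e2'] at e1'
  apply ext3
  · exact e0
  · linarith
  · linarith

/-- The residues of the cells of the arm. -/
def Sx (x z : ℤ) : Prop :=
  ∃ k, 1 ≤ k ∧ k < T ∧ 2 * B ∣ 2 * x1 - x - 2 * k ∧ β * B ^ 2 + 1 ∣ z0 - z - β * k

/-- The cells of the plate with a hole or the arm. -/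
def inD (c : Fin 3 → ℤ) : Prop :=
  (c 1 = 0 ∧ (0 ≤ c 0 ∧ c 0 < 2 * B) ∧ (0 ≤ c 2 ∧ c 2 < β * B ^ 2 + 1) ∧
    ¬ Sx B β T x1 z0 (c 0) (c 2)) ∨
  (c 0 = 2 * x1 ∧ (1 ≤ c 1 ∧ c 1 < T) ∧ c 2 = z0)

theorem inD_finite : {c | inD B β T x1 z0 c}.Finite := by
  have h : {c | inD B β T x1 z0 c} ⊆
      (fun p : ℤ × ℤ × ℤ => v3 p.1 p.2.1 p.2.2) ''
        (((Set.Ico 0 (2 * B)) ×ˢ ({0} ×ˢ (Set.Ico 0 (β * B ^ 2 + 1)))) ∪
          ({2 * x1} ×ˢ ((Set.Ico 1 T) ×ˢ {z0}))) := by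
    rintro c (⟨h1, h2, h3, -⟩ | ⟨h1, h2, h3⟩)
    · refine ⟨(c 0, c 1, c 2), Or.inl ?_, ext3 rfl rfl rfl⟩
      simp only [Set.mem_prod, Set.mem_Ico, Set.mem_singleton_iff]
      exact ⟨h2, h1, h3⟩
    · refine ⟨(c 0, c 1, c 2), Or.inr ?_, ext3 rfl rfl rfl⟩
      simp only [Set.mem_prod, Set.mem_Ico, Set.mem_singleton_iff]
      exact ⟨h1, h2, h3⟩
  refine Set.Finite.subset (Set.Finite.image _ (Set.Finite.union ?_ ?_)) h
  · exact (Set.finite_Ico _ _).prod ((Set.finite_singleton _).prod (Set.finite_Ico _ _))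
  · exact (Set.finite_singleton _).prod ((Set.finite_Ico _ _).prod (Set.finite_singleton _))

/-- The arm cells have distinct residues. -/
theorem arm_inj (hB : 1 ≤ B) (hβ : 1 ≤ β) {k k' : ℤ} (h : β * B ^ 2 + 1 ∣ β * k - β * k')
    (h1 : k - k' < β * B ^ 2 + 1) (h2 : k' - k < β * B ^ 2 + 1) : k = k' := by
  have h3 : β * B ^ 2 + 1 ∣ k - k' := by
    have e : k - k' = (β * B ^ 2 + 1) * (k - k') - B ^ 2 * (β * k - β * k') := by ring
    rw [e]
    exact dvd_sub (Dvd.intro _ rfl) (Dvd.dvd.mul_left h _)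
  have h4 : k - k' = 0 := Int.eq_zero_of_abs_lt_dvd h3 (by rw [abs_lt]; constructor <;> linarith)
  linarith

theorem mod_unique {a b n : ℤ} (h : n ∣ a - b) (ha : 0 ≤ a ∧ a < n) (hb : 0 ≤ b ∧ b < n) :
    a = b := by
  have h4 : a - b = 0 := Int.eq_zero_of_abs_lt_dvd h (by rw [abs_lt]; constructor <;> linarith [ha.1, ha.2, hb.1, hb.2])
  linarith

theorem transv (hB : 1 ≤ B) (hβ : 1 ≤ β) (hT : T ≤ β * B ^ 2 + 1) {D : Finset (Fin 3 → ℤ)}
    (hD : ∀ c, c ∈ D ↔ inD B β T x1 z0 c) : Transv (phi B β) D := by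
  have hH : 0 < β * B ^ 2 + 1 := by positivity
  have hN : 0 < 2 * B := by positivity
  intro c
  -- existence
  obtain ⟨v, d, hd, e⟩ : ∃ v d, inD B β T x1 z0 d ∧ phi B β v + d = c := by
    set x' := (c 0 - 2 * c 1) % (2 * B) with hx'
    set z' := (c 2 - β * c 1) % (β * B ^ 2 + 1) with hz'
    have dx : 2 * B ∣ (c 0 - 2 * c 1) - x' := Int.dvd_self_sub_emod
    have dz : β * B ^ 2 + 1 ∣ (c 2 - β * c 1) - z' := Int.dvd_self_sub_emod
    by_cases hS : Sx B β T x1 z0 x' z'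
    · obtain ⟨k, hk1, hk2, hk3, hk4⟩ := hS
      obtain ⟨v, hv⟩ := phi_surj B β (x := c 0 - 2 * x1) (y := c 1 - k) (z := c 2 - z0)
        (by
          have := dvd_sub dx hk3
          refine (dvd_iff_dvd_of_dvd_sub ?_).1 this
          exact ⟨0, by ring⟩)
        (by
          have := dvd_sub dz hk4
          refine (dvd_iff_dvd_of_dvd_sub ?_).1 this
          exact ⟨0, by ring⟩)
      refine ⟨v, v3 (2 * x1) k z0, Or.inr ⟨rfl, ⟨hk1, hk2⟩, rfl⟩, ?_⟩
      rw [hv]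
      apply ext3 <;> simp
    · obtain ⟨v, hv⟩ := phi_surj B β (x := c 0 - x') (y := c 1) (z := c 2 - z')
        (by
          refine (dvd_iff_dvd_of_dvd_sub ?_).1 dx
          exact ⟨0, by ring⟩)
        (by
          refine (dvd_iff_dvd_of_dvd_sub ?_).1 dz
          exact ⟨0, by ring⟩)
      refine ⟨v, v3 x' 0 z', Or.inl ⟨rfl, ⟨Int.emod_nonneg _ hN.ne', Int.emod_lt_of_pos _ hN⟩,
        ⟨Int.emod_nonneg _ hH.ne', Int.emod_lt_of_pos _ hH⟩, hS⟩, ?_⟩
      rw [hv]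
      apply ext3 <;> simp
  refine ⟨(v, d), ⟨(hD _).2 hd, e⟩, ?_⟩
  rintro ⟨v', d'⟩ ⟨hd', e'⟩
  simp only at hd' e'
  rw [hD] at hd'
  have key : phi B β (v' - v) = d - d' := by
    rw [map_sub]
    have : phi B β v' + d' = phi B β v + d := by rw [e, e']
    calc phi B β v' - phi B β v = (phi B β v' + d') - (phi B β v + d) + (d - d') := by abel
      _ = d - d' := by rw [this]; abel
  have hx : 2 * B ∣ (d 0 - d' 0) - 2 * (d 1 - d' 1) := by
    have h0 := congrFun key 0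
    have h1 := congrFun key 1
    rw [phi_apply] at h0 h1
    simp only [v3_0, v3_1, Pi.sub_apply] at h0 h1
    rw [← h0, ← h1]
    exact ⟨-(v' 1 - v 1) - B * (v' 2 - v 2), by ring⟩
  have hz : β * B ^ 2 + 1 ∣ (d 2 - d' 2) - β * (d 1 - d' 1) := by
    have h1 := congrFun key 1
    have h2 := congrFun key 2
    rw [phi_apply] at h1 h2
    simp only [v3_2, v3_1, Pi.sub_apply] at h1 h2
    rw [← h1, ← h2]
    exact ⟨-(v' 2 - v 2), by ring⟩
  have hdd : d = d' := by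
    rcases hd with ⟨h1, h2, h3, h4⟩ | ⟨h1, h2, h3⟩ <;> rcases hd' with ⟨h1', h2', h3', h4'⟩ | ⟨h1', h2', h3'⟩
    · rw [h1, h1', sub_self, mul_zero, sub_zero] at hx hz
      exact ext3 (mod_unique hx h2 h2') (h1.trans h1'.symm) (mod_unique hz h3 h3')
    · exfalso
      refine h4 ⟨d' 1, h2'.1, h2'.2, ?_, ?_⟩
      · rw [h1, h1'] at hx
        have := (dvd_neg (a := 2 * B)).2 hx
        refine (dvd_iff_dvd_of_dvd_sub ?_).1 this
        exact ⟨0, by ring⟩
      · rw [h1, h3'] at hz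
        have := (dvd_neg (a := β * B ^ 2 + 1)).2 hz
        refine (dvd_iff_dvd_of_dvd_sub ?_).1 this
        exact ⟨0, by ring⟩
    · exfalso
      refine h4' ⟨d 1, h2.1, h2.2, ?_, ?_⟩
      · rw [h1, h1'] at hx
        refine (dvd_iff_dvd_of_dvd_sub ?_).1 hx
        exact ⟨0, by ring⟩
      · rw [h1', h3] at hz
        refine (dvd_iff_dvd_of_dvd_sub ?_).1 hz
        exact ⟨0, by ring⟩
    · rw [h3, h3', sub_self, zero_sub] at hz
      have hz' := (dvd_neg (a := β * B ^ 2 + 1)).2 hz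
      rw [neg_neg, mul_sub] at hz'
      have := arm_inj B β hB hβ hz' (by linarith) (by linarith)
      exact ext3 (h1.trans h1'.symm) this (h3.trans h3'.symm)
  subst hdd
  rw [sub_self] at key
  have h5 : v' - v = 0 := phi_inj B β hB hβ (by rw [key, map_zero])
  rw [sub_eq_zero.1 h5]

end Vale.Agent.P043.H467
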