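import Vale.Agent.P043.Bdl.B1

/-!
# P043: a rigid fundamental domain of `ℤ^d` with connected interior

This is the argument of `Vale.Agent.P043.Bdl.B1` (`Rg`), with the small boxes moved to the faces of
the unit cube: the dent is on the face `x_j = 0`, the bump on the face `x_j = 1`.
-/

set_option autoImplicit false
set_option linter.all false

namespace Vale.Agent.P043.H467.Eu

open MeasureTheory Vale.Agent.P043 Vale.Agent.P043.Eu
open scoped Pointwise

variable {d : ℕ}

/-- corner of the `j`-th small box -/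
noncomputable def corF (j : Fin d) : Fin d → ℝ := fun i => if i = j then 0 else 1 / 2

/-- the `j`-th small box, side `1/8`, touching the face `x_j = 0` of the unit cube -/
def QF (j : Fin d) : Set (Fin d → ℝ) := {x | ∀ i, corF j i ≤ x i ∧ x i < corF j i + 1 / 8}

/-- the rigid fundamental domain: the small box `QF j` is moved by `e_j` -/
def RF (d : ℕ) : Set (Fin d → ℝ) := {x | (x ∈ C d ∧ ∀ j, x ∉ QF j) ∨ ∃ j, x - ev j ∈ QF j}

theorem QF_subset_C (j : Fin d) : QF j ⊆ C d := by
  intro x hx i
  have := hx i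
  unfold corF at this
  split_ifs at this <;> constructor <;> linarith only [this]

theorem QF_disjoint {i j : Fin d} {x : Fin d → ℝ} (hi : x ∈ QF i) (hj : x ∈ QF j) : i = j := by
  by_contra hne
  have h1 := hi i
  have h2 := hj i
  unfold corF at h1 h2
  rw [if_pos rfl] at h1
  rw [if_neg hne] at h2
  linarith [h1.1, h1.2, h2.1, h2.2]

/-- `RF d` is a fundamental domain for `ℤ^d` -/
theorem RF_fund (x : Fin d → ℝ) : ∃! z : Fin d → ℤ, x - iv z ∈ RF d := by
  set z0 : Fin d → ℤ := fun i => ⌊x i⌋ with hz0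
  have hC0 : x - iv z0 ∈ C d := (basic_mem_C_iff x z0).mpr rfl
  by_cases hQ : ∃ j, x - iv z0 ∈ QF j
  · obtain ⟨j0, hj0⟩ := hQ
    refine ⟨z0 - Pi.single j0 1, ?_, ?_⟩
    · refine Or.inr ⟨j0, ?_⟩
      rw [basic_sub_shift, sub_add_cancel]
      exact hj0
    · rintro z (⟨hzC, hzQ⟩ | ⟨j, hj⟩)
      · have : z = z0 := (basic_mem_C_iff x z).mp hzC
        rw [this] at hzQ
        exact absurd hj0 (hzQ j0)
      · rw [basic_sub_shift] at hj
        have h1 : z + Pi.single j 1 = z0 := (basic_mem_C_iff x _).mp (QF_subset_C j hj)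
        rw [h1] at hj
        have h2 := QF_disjoint hj hj0
        rw [← h1, h2, add_sub_cancel_right]
  · push Not at hQ
    refine ⟨z0, Or.inl ⟨hC0, hQ⟩, ?_⟩
    rintro z (⟨hzC, hzQ⟩ | ⟨j, hj⟩)
    · exact (basic_mem_C_iff x z).mp hzC
    · rw [basic_sub_shift] at hj
      have h1 : z + Pi.single j 1 = z0 := (basic_mem_C_iff x _).mp (QF_subset_C j hj)
      rw [h1] at hj
      exact absurd hj (hQ j)

theorem QF_measurable (j : Fin d) : MeasurableSet (QF j) := by
  have : QF j = Set.pi Set.univ (fun i => Set.Ico (corF j i) (corF j i + 1 / 8)) := by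
    ext x
    simp only [QF, one_div, Set.mem_ofPred_eq, Set.mem_pi, Set.mem_univ, Set.mem_Ico, forall_const]
  rw [this]
  exact MeasurableSet.univ_pi fun _ => measurableSet_Ico

theorem RF_measurable : MeasurableSet (RF d) := by
  have : RF d = (C d ∩ (⋂ j, (QF j)ᶜ)) ∪ ⋃ j, (fun x : Fin d → ℝ => x - ev j) ⁻¹' (QF j) := by
    ext x
    simp only [RF, Set.mem_ofPred_eq, Set.mem_union, Set.mem_inter_iff, Set.mem_iInter, Set.mem_compl_iff, Set.mem_iUnion, Set.mem_preimage]
  rw [this]
  refine (C_measurable.inter (MeasurableSet.iInter fun j => (QF_measurable j).compl)).union ?_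
  exact MeasurableSet.iUnion fun j => (measurable_id.sub_const (ev j)) (QF_measurable j)

theorem RF_bounded : Bornology.IsBounded (RF d) := by
  have h : RF d ⊆ Set.Icc (fun _ => (-1 : ℝ)) (fun _ => (2 : ℝ)) := by
    rintro x (⟨hxC, _⟩ | ⟨j, hj⟩)
    · constructor
      · intro i
        show (-1 : ℝ) ≤ x i
        linarith only [(hxC i).1]
      · intro i
        show x i ≤ (2 : ℝ)
        linarith only [(hxC i).2]
    · have hC := QF_subset_C j hj
      constructor
      · intro i
        show (-1 : ℝ) ≤ x i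
        have h1 := hC i
        simp only [Pi.sub_apply, ev] at h1
        by_cases hij : i = j
        · subst hij
          simp only [Pi.single_eq_same, sub_nonneg] at h1
          linarith only [h1]
        · rw [Pi.single_eq_of_ne hij] at h1
          linarith [h1.1]
      · intro i
        show x i ≤ (2 : ℝ)
        have h1 := hC i
        simp only [Pi.sub_apply, ev] at h1
        by_cases hij : i = j
        · subst hij
          simp only [Pi.single_eq_same, sub_nonneg] at h1
          linarith only [h1]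
        · rw [Pi.single_eq_of_ne hij] at h1
          linarith [h1.2]
  exact (Metric.isBounded_Icc _ _).subset h

/-- good coordinates -/
def Gd (t : ℝ) : Prop := (1 / 8 < t ∧ t < 1 / 2) ∨ 5 / 8 < t

/-- pairs of coordinates which exclude the small boxes -/
def Av (s t : ℝ) : Prop := Gd s ∨ Gd t ∨ (s < 1 / 2 ∧ t < 1 / 2)

theorem not_mem_QF_of_Gd {x : Fin d → ℝ} {i : Fin d} (h : Gd (x i)) (j : Fin d) : x ∉ QF j := by
  intro hx
  have h1 := hx i
  unfold corF at h1
  split_ifs at h1 <;> rcases h with h | h <;> linarith only [h1, h]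

theorem not_mem_QF_of_Av {x : Fin d → ℝ} {i k : Fin d} (hik : i ≠ k) (h : Av (x i) (x k))
    (j : Fin d) : x ∉ QF j := by
  rcases h with h | h | ⟨h1, h2⟩
  · exact not_mem_QF_of_Gd h j
  · exact not_mem_QF_of_Gd h j
  · intro hx
    by_cases hij : i = j
    · have h3 := hx k
      unfold corF at h3
      rw [if_neg (fun e => hik (hij.trans e.symm))] at h3
      linarith only [h3, h2]
    · have h3 := hx i
      unfold corF at h3
      rw [if_neg hij] at h3
      linarith only [h3, h1]

theorem line_pos {a : ℝ} (h0 : 0 ≤ a) (h1 : a < 7 / 8) :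
    ∃ x : ℝ, (0 < x ∧ x < 1 ∧ 0 < x - a ∧ x - a < 1) ∧ Gd x ∧ Gd (x - a) := by
  rcases lt_or_ge a (3 / 8) with h2 | h2
  · exact ⟨(13 / 8 + a) / 2, ⟨by linarith, by linarith, by linarith, by linarith⟩,
      Or.inr (by linarith), Or.inr (by linarith)⟩
  · rcases lt_or_ge a (1 / 2) with h3 | h3
    · exact ⟨a + 7 / 16, ⟨by linarith, by linarith, by linarith, by linarith⟩,
        Or.inr (by linarith), Or.inl ⟨by linarith, by linarith⟩⟩
    · exact ⟨(9 / 8 + a) / 2, ⟨by linarith, by linarith, by linarith, by linarith⟩,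
        Or.inr (by linarith), Or.inl ⟨by linarith, by linarith⟩⟩

theorem line_small {a : ℝ} (h : |a| < 7 / 8) :
    ∃ x : ℝ, (0 < x ∧ x < 1 ∧ 0 < x - a ∧ x - a < 1) ∧ Gd x ∧ Gd (x - a) := by
  rw [abs_lt] at h
  rcases le_or_gt 0 a with h0 | h0
  · exact line_pos h0 h.2
  · obtain ⟨x, ⟨h1, h2, h3, h4⟩, h5, h6⟩ := line_pos (a := -a) (by linarith) (by linarith)
    refine ⟨x + a, ⟨by linarith, by linarith, by linarith, by linarith⟩, ?_, ?_⟩
    · have e : x + a = x - -a := by ring
      rw [e]; exact h6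
    · have e : x + a - a = x := by ring
      rw [e]; exact h5

theorem line_any {a : ℝ} (h : |a| < 1) :
    ∃ x : ℝ, (0 < x ∧ x < 1 ∧ 0 < x - a ∧ x - a < 1) ∧
      (7 / 8 ≤ |a| → (Gd x ∧ x - a < 1 / 2) ∨ (x < 1 / 2 ∧ Gd (x - a))) := by
  rw [abs_lt] at h
  rcases le_or_gt 0 a with h0 | h0
  · refine ⟨(1 + a) / 2, ⟨by linarith, by linarith, by linarith, by linarith⟩, fun h1 => ?_⟩
    rw [abs_of_nonneg h0] at h1
    exact Or.inl ⟨Or.inr (by linarith), by linarith⟩
  · refine ⟨(1 + a) / 2, ⟨by linarith, by linarith, by linarith, by linarith⟩, fun h1 => ?_⟩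
    rw [abs_of_neg h0] at h1
    exact Or.inr ⟨by linarith, Or.inr (by linarith)⟩

theorem plane_any {a b : ℝ} (ha : |a| < 1) (hb : |b| < 1) :
    ∃ x y : ℝ, (0 < x ∧ x < 1 ∧ 0 < x - a ∧ x - a < 1) ∧ (0 < y ∧ y < 1 ∧ 0 < y - b ∧ y - b < 1) ∧
      Av x y ∧ Av (x - a) (y - b) := by
  obtain ⟨x, hx, hx'⟩ := line_any ha
  obtain ⟨y, hy, hy'⟩ := line_any hb
  rcases lt_or_ge |a| (7 / 8) with h1 | h1
  · obtain ⟨x, hx, h2, h3⟩ := line_small h1
    exact ⟨x, y, hx, hy, Or.inl h2, Or.inl h3⟩
  · rcases lt_or_ge |b| (7 / 8) with h2 | h2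
    · obtain ⟨y, hy, h3, h4⟩ := line_small h2
      exact ⟨x, y, hx, hy, Or.inr (Or.inl h3), Or.inr (Or.inl h4)⟩
    · refine ⟨x, y, hx, hy, ?_, ?_⟩
      · rcases hx' h1 with ⟨h3, h4⟩ | ⟨h3, h4⟩
        · exact Or.inl h3
        · rcases hy' h2 with ⟨h5, h6⟩ | ⟨h5, h6⟩
          · exact Or.inr (Or.inl h5)
          · exact Or.inr (Or.inr ⟨h3, h5⟩)
      · rcases hx' h1 with ⟨h3, h4⟩ | ⟨h3, h4⟩
        · rcases hy' h2 with ⟨h5, h6⟩ | ⟨h5, h6⟩
          · exact Or.inr (Or.inr ⟨h4, h6⟩)
          · exact Or.inr (Or.inl h6)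
        · exact Or.inl h4

/-- positive overlap for small translations (also gives positive measure of `RF`, `a = 0`) -/
theorem RF_overlap (hd : 2 ≤ d) (a : Fin d → ℝ) (ha : ∀ i, |a i| < 1) :
    0 < volume {x | x ∈ RF d ∧ x - a ∈ RF d} := by
  classical
  set i0 : Fin d := ⟨0, by omega⟩ with hi0
  set i1 : Fin d := ⟨1, by omega⟩ with hi1
  have hne : i1 ≠ i0 := by
    intro h
    have := congrArg Fin.val h
    simp only [hi1, hi0, one_ne_zero] at this
  set U : Set (Fin d → ℝ) := {x | (∀ i, 0 < x i ∧ x i < 1 ∧ 0 < x i - a i ∧ x i - a i < 1) ∧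
    Av (x i0) (x i1) ∧ Av (x i0 - a i0) (x i1 - a i1)} with hU
  have hUopen : IsOpen U := by
    have e : U = (⋂ i, {x : Fin d → ℝ | 0 < x i ∧ x i < 1 ∧ 0 < x i - a i ∧ x i - a i < 1}) ∩
        ({x | Av (x i0) (x i1)} ∩ {x | Av (x i0 - a i0) (x i1 - a i1)}) := by
      ext x
      simp only [hU, Set.mem_ofPred_eq, Set.mem_inter_iff, Set.mem_iInter]
    rw [e]
    have hc : ∀ i : Fin d, Continuous (fun x : Fin d → ℝ => x i) := fun i => continuous_apply i
    have hca : ∀ i : Fin d, Continuous (fun x : Fin d → ℝ => x i - a i) :=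
      fun i => (hc i).sub continuous_const
    have hG : ∀ g : (Fin d → ℝ) → ℝ, Continuous g → IsOpen {x | Gd (g x)} := by
      intro g hg
      exact ((isOpen_lt continuous_const hg).inter (isOpen_lt hg continuous_const)).union
        (isOpen_lt continuous_const hg)
    have hAv : ∀ g h : (Fin d → ℝ) → ℝ, Continuous g → Continuous h →
        IsOpen {x | Av (g x) (h x)} := by
      intro g h hg hh
      exact (hG g hg).union ((hG h hh).union
        ((isOpen_lt hg continuous_const).inter (isOpen_lt hh continuous_const)))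
    refine (isOpen_iInter_of_finite fun i => ?_).inter (IsOpen.inter ?_ ?_)
    · exact (isOpen_lt continuous_const (hc i)).inter ((isOpen_lt (hc i) continuous_const).inter
        ((isOpen_lt continuous_const (hca i)).inter (isOpen_lt (hca i) continuous_const)))
    · exact hAv _ _ (hc i0) (hc i1)
    · exact hAv _ _ (hca i0) (hca i1)
  have hUne : U.Nonempty := by
    obtain ⟨x, y, hx, hy, h1, h2⟩ := plane_any (ha i0) (ha i1)
    choose w hw using fun i => line_any (ha i)
    refine ⟨fun i => if i = i0 then x else if i = i1 then y else w i, ?_, ?_, ?_⟩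
    · intro i
      by_cases h : i = i0
      · subst h
        simp only [if_pos]
        exact hx
      · by_cases h' : i = i1
        · subst h'
          simp only [if_neg h, if_pos]
          exact hy
        · simp only [if_neg h, if_neg h']
          exact (hw i).1
    · simp only [if_neg hne, if_pos]
      exact h1
    · simp only [if_neg hne, if_pos]
      exact h2
  have hsub : U ⊆ {x | x ∈ RF d ∧ x - a ∈ RF d} := by
    rintro x ⟨hx, h0, h1⟩
    exact ⟨Or.inl ⟨fun i => ⟨(hx i).1.le, (hx i).2.1⟩, fun j => not_mem_QF_of_Av hne.symm h0 j⟩,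
      Or.inl ⟨fun i => ⟨(hx i).2.2.1.le, (hx i).2.2.2⟩,
        fun j => not_mem_QF_of_Av (x := x - a) hne.symm h1 j⟩⟩
  exact lt_of_lt_of_le (hUopen.measure_pos volume hUne) (measure_mono hsub)

theorem pointwiseF (y : Fin d → ℝ) :
    (RF d).indicator (1 : (Fin d → ℝ) → ENNReal) y + ∑ j, (QF j).indicator 1 y =
      (C d).indicator 1 y + ∑ j, (QF j).indicator 1 (y - ev j) := by
  classical
  have hQQ : ∀ i j, y ∈ QF i → y ∈ QF j → i = j := by
    intro i j hi hj
    by_contra hne
    have h1 := hi i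
    have h2 := hj i
    simp only [corF, if_neg hne] at h1 h2
    simp only [↓reduceIte, one_div] at h1 h2
    linarith only [h1, h2]
  have hEE : ∀ i j, y - ev i ∈ QF i → y - ev j ∈ QF j → i = j := by
    intro i j hi hj
    by_contra hne
    have h1 := hi i
    have h2 := hj i
    simp only [corF, ↓reduceIte, one_div, ev, Pi.sub_apply, Pi.single_eq_same, hne, ne_eq, not_false_eq_true, Pi.single_eq_of_ne, sub_zero] at h1 h2
    linarith only [h1, h2]
  have hCE : ∀ j, y - ev j ∈ QF j → y ∉ C d := by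
    intro j hj hC
    have h1 := hj j
    have h2 := hC j
    simp only [corF, ↓reduceIte, one_div, ev, Pi.sub_apply, Pi.single_eq_same] at h1
    linarith only [h2, h1]
  by_cases hC : y ∈ C d
  · have hE : ∀ j, y - ev j ∉ QF j := fun j hj => hCE j hj hC
    have e1 : ∑ j, (QF j).indicator (1 : (Fin d → ℝ) → ENNReal) (y - ev j) = 0 :=
      Finset.sum_eq_zero fun j _ => Set.indicator_of_notMem (hE j) _
    rw [e1, Set.indicator_of_mem hC]
    by_cases hQ : ∃ j, y ∈ QF j
    · obtain ⟨j, hj⟩ := hQ
      have hR : y ∉ RF d := by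
        rintro (⟨_, h⟩ | ⟨i, hi⟩)
        · exact h j hj
        · exact hE i hi
      have e2 : ∑ j, (QF j).indicator (1 : (Fin d → ℝ) → ENNReal) y = 1 := by
        rw [Finset.sum_eq_single j]
        · simp only [Set.indicator_of_mem hj, Pi.one_apply]
        · intro i _ hij
          exact Set.indicator_of_notMem (fun hi => hij (hQQ i j hi hj)) _
        · simp only [Finset.mem_univ, not_true_eq_false, Set.indicator_apply_eq_zero, Pi.one_apply, one_ne_zero, imp_false, IsEmpty.forall_iff]
      rw [e2, Set.indicator_of_notMem hR]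
      simp
    · push Not at hQ
      have hR : y ∈ RF d := Or.inl ⟨hC, hQ⟩
      have e2 : ∑ j, (QF j).indicator (1 : (Fin d → ℝ) → ENNReal) y = 0 :=
        Finset.sum_eq_zero fun j _ => Set.indicator_of_notMem (hQ j) _
      rw [e2, Set.indicator_of_mem hR]
  · have hQ : ∀ j, y ∉ QF j := fun j hj => hC (QF_subset_C j hj)
    have e2 : ∑ j, (QF j).indicator (1 : (Fin d → ℝ) → ENNReal) y = 0 :=
      Finset.sum_eq_zero fun j _ => Set.indicator_of_notMem (hQ j) _
    rw [e2, Set.indicator_of_notMem hC]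
    by_cases hE : ∃ j, y - ev j ∈ QF j
    · obtain ⟨j, hj⟩ := hE
      have hR : y ∈ RF d := Or.inr ⟨j, hj⟩
      have e1 : ∑ j, (QF j).indicator (1 : (Fin d → ℝ) → ENNReal) (y - ev j) = 1 := by
        rw [Finset.sum_eq_single j]
        · simp [Set.indicator_of_mem hj]
        · intro i _ hij
          exact Set.indicator_of_notMem (fun hi => hij (hEE i j hi hj)) _
        · simp only [Finset.mem_univ, not_true_eq_false, Set.indicator_apply_eq_zero, Pi.one_apply, one_ne_zero, imp_false, IsEmpty.forall_iff]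
      rw [e1, Set.indicator_of_mem hR]
      simp
    · push Not at hE
      have hR : y ∉ RF d := by
        rintro (⟨h, _⟩ | ⟨i, hi⟩)
        · exact hC h
        · exact hE i hi
      have e1 : ∑ j, (QF j).indicator (1 : (Fin d → ℝ) → ENNReal) (y - ev j) = 0 :=
        Finset.sum_eq_zero fun j _ => Set.indicator_of_notMem (hE j) _
      rw [e1, Set.indicator_of_notMem hR]

theorem cnt_identityF (A : Set (Fin d → ℝ)) (x : Fin d → ℝ) :
    cnt A (RF d) x + ∑ j, cnt A (QF j) x = cnt A (C d) x + ∑ j, cnt A (QF j) (x - ev j) := by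
  unfold cnt
  rw [← Summable.tsum_finsetSum (fun _ _ => ENNReal.summable),
    ← Summable.tsum_finsetSum (fun _ _ => ENNReal.summable), ← ENNReal.tsum_add,
    ← ENNReal.tsum_add]
  refine tsum_congr fun a => ?_
  have := pointwiseF (x - (a : Fin d → ℝ))
  rw [this]
  congr 1
  refine Finset.sum_congr rfl fun j _ => ?_
  rw [sub_right_comm]

/-- volume count modulo the lattice -/
theorem countF (A : Set (Fin d → ℝ)) (hsep : Sep A) (b : Module.Basis (Fin d) ℝ (Fin d → ℝ))
    (hper : ∀ i, ∀ a, b i + a ∈ A ↔ a ∈ A) (htile : TilesAE (RF d) A) :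
    ∀ᵐ x : Fin d → ℝ, (∃ a ∈ A, ∃ j, x - a - ev j ∈ QF j) → (∃ a ∈ A, ∃ j, x - a ∈ QF j) := by
  classical
  have hAc := hsep.countable
  have hAcount : Countable A := hAc.to_subtype
  have hmeas : ∀ {E}, MeasurableSet E → Measurable (cnt A E) := fun h => cnt_measurable hAc h
  have hinv : ∀ E : Set (Fin d → ℝ), ∀ v ∈ Submodule.span ℤ (Set.range b), ∀ x,
      cnt A E (v + x) = cnt A E x := fun E v hv x => cnt_add (mem_add_iff hper hv) x
  -- `cnt RF = 1` almost everywhere
  have hRg : ∀ᵐ x : Fin d → ℝ, cnt A (RF d) x = 1 := by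
    have h1 : ∀ᵐ x : Fin d → ℝ, x ∈ ⋃ a ∈ A, {x | x - a ∈ RF d} := by
      rw [ae_iff]
      exact htile.1
    have h2 : ∀ᵐ x : Fin d → ℝ, ∀ a : A, ∀ a' : A, (a : Fin d → ℝ) ≠ a' →
        x ∉ {x | x - (a : Fin d → ℝ) ∈ RF d} ∩ {x | x - (a' : Fin d → ℝ) ∈ RF d} := by
      rw [ae_all_iff]
      intro a
      rw [ae_all_iff]
      intro a'
      by_cases haa : (a : Fin d → ℝ) = a'
      · exact Filter.Eventually.of_forall fun x h => absurd haa h
      · have h3 := htile.2 a a.2 a' a'.2 haa
        have h4 := measure_eq_zero_iff_ae_notMem.1 h3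
        filter_upwards [h4] with x hx _ using hx
    filter_upwards [h1, h2] with x hx1 hx2
    rw [Set.mem_iUnion₂] at hx1
    obtain ⟨a, ha, hxa⟩ := hx1
    refine cnt_eq_one ha hxa ?_
    intro a' ha' hxa'
    by_contra hne
    exact hx2 ⟨a', ha'⟩ ⟨a, ha⟩ hne ⟨hxa', hxa⟩
  set D := ZSpan.fundamentalDomain b with hDdef
  have hD := ZSpan.isAddFundamentalDomain' b (volume : Measure (Fin d → ℝ))
  have hc : Countable (Submodule.span ℤ (Set.range b)) := inferInstance
  have hc' : Countable (Submodule.span ℤ (Set.range b)).toAddSubgroup := hc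
  have hDfin : volume D ≠ ⊤ := (ZSpan.fundamentalDomain_isBounded b).measure_lt_top.ne
  have hQfin : ∀ j : Fin d, ∫⁻ x in D, cnt A (QF j) x ≠ ⊤ := by
    intro j
    have h1 : ∫⁻ x in D, cnt A (QF j) x ≤ ∫⁻ x in D, 1 := by
      refine lintegral_mono fun x => ?_
      refine le_trans ?_ (cnt_C_le hsep x)
      refine ENNReal.tsum_le_tsum fun a => ?_
      exact Set.indicator_le_indicator_of_subset (QF_subset_C j) (fun _ => bot_le) _
    rw [setLIntegral_one] at h1
    exact ne_top_of_le_ne_top hDfin h1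
  have hI : (∫⁻ x in D, cnt A (RF d) x) + ∑ j, ∫⁻ x in D, cnt A (QF j) x =
      (∫⁻ x in D, cnt A (C d) x) + ∑ j, ∫⁻ x in D, cnt A (QF j) (x - ev j) := by
    have hms : ∀ j : Fin d, Measurable fun x => cnt A (QF j) (x - ev j) := fun j =>
      (hmeas (QF_measurable j)).comp (measurable_id.sub_const _)
    rw [← lintegral_finsetSum _ (fun j _ => hmeas (QF_measurable j)),
      ← lintegral_finsetSum _ (fun j _ => hms j),
      ← lintegral_add_left (hmeas RF_measurable), ← lintegral_add_left (hmeas C_measurable)]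
    refine lintegral_congr fun x => ?_
    exact cnt_identityF A x
  have hI2 : ∑ j, ∫⁻ x in D, cnt A (QF j) (x - ev j) = ∑ j, ∫⁻ x in D, cnt A (QF j) x :=
    Finset.sum_congr rfl fun j _ => integral_shift b _ (hinv _) _
  rw [hI2] at hI
  have hSfin : ∑ j, ∫⁻ x in D, cnt A (QF j) x ≠ ⊤ :=
    (ENNReal.sum_ne_top).2 fun j _ => hQfin j
  have hI3 : ∫⁻ x in D, cnt A (RF d) x = ∫⁻ x in D, cnt A (C d) x :=
    (ENNReal.add_left_inj hSfin).1 hI
  have hI4 : ∫⁻ x in D, cnt A (RF d) x = volume D := by
    rw [← setLIntegral_one]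
    refine lintegral_congr_ae ?_
    exact ae_restrict_of_ae hRg
  -- `cnt C = 1` almost everywhere
  have hC : ∀ᵐ x : Fin d → ℝ, cnt A (C d) x = 1 := by
    have h1 : ∀ᵐ x ∂(volume.restrict D), cnt A (C d) x = 1 := by
      have h2 : (fun x => cnt A (C d) x) =ᵐ[volume.restrict D] fun _ => (1 : ENNReal) := by
        refine ae_eq_of_ae_le_of_lintegral_le
          (Filter.Eventually.of_forall fun x => cnt_C_le hsep x) ?_ aemeasurable_const ?_
        · rw [← hI3, hI4]; exact hDfin
        · rw [← hI3, hI4, setLIntegral_one]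
      exact h2
    have h2 : volume {x : Fin d → ℝ | ¬ cnt A (C d) x = 1} = 0 := by
      refine hD.measure_zero_of_invariant _ (fun v => ?_) ?_
      · ext x
        rw [Set.mem_vadd_set]
        constructor
        · rintro ⟨y, hy, rfl⟩
          change ¬ cnt A (C d) ((v : Fin d → ℝ) + y) = 1
          rw [hinv _ _ v.2]
          exact hy
        · intro hx
          refine ⟨(-v : (Submodule.span ℤ (Set.range b)).toAddSubgroup) +ᵥ x, ?_, ?_⟩
          · change ¬ cnt A (C d) (((-v : (Submodule.span ℤ (Set.range b)).toAddSubgroup) : Fin d → ℝ) + x) = 1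
            rw [hinv _ _ (-v).2]
            exact hx
          · simp
      · have h3 := h1
        rw [ae_iff, Measure.restrict_apply' (ZSpan.fundamentalDomain_measurableSet b)] at h3
        exact h3
    rw [ae_iff]
    exact h2
  filter_upwards [hRg, hC] with x hx1 hx2
  rintro ⟨a, ha, j, hj⟩
  have h1 := cnt_identityF A x
  rw [hx1, hx2] at h1
  have h2 : ∑ j, cnt A (QF j) x = ∑ j, cnt A (QF j) (x - ev j) :=
    (ENNReal.add_right_inj ENNReal.one_ne_top).1 h1
  have h3 : 1 ≤ ∑ j, cnt A (QF j) (x - ev j) := by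
    refine le_trans ?_ (Finset.single_le_sum (f := fun j => cnt A (QF j) (x - ev j))
      (fun _ _ => bot_le) (Finset.mem_univ j))
    refine one_le_cnt ha ?_
    rwa [sub_right_comm]
  have h4 : ∑ j, cnt A (QF j) x ≠ 0 := by
    rw [h2]
    intro h0
    rw [h0] at h3
    exact absurd h3 (by simp only [nonpos_iff_eq_zero, one_ne_zero, not_false_eq_true])
  obtain ⟨i, _, hi⟩ := Finset.exists_ne_zero_of_sum_ne_zero h4
  obtain ⟨a', ha', hx'⟩ := mem_of_cnt_ne_zero hi
  exact ⟨a', ha', i, hx'⟩

theorem corF_self (j : Fin d) : corF j j = 0 := by simp [corF]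

theorem corF_ne {i j : Fin d} (h : i ≠ j) : corF j i = 1 / 2 := by simp [corF, h]

theorem corF_bounds (j i : Fin d) : 0 ≤ corF j i ∧ corF j i ≤ 1 / 2 := by
  unfold corF
  split_ifs <;> norm_num

/-- two corners of small boxes of a separated set which are closer than `1/4` are equal -/
theorem corner_sepF {A : Set (Fin d → ℝ)} (hsep : Sep A) {a1 a2 : Fin d → ℝ} (h1 : a1 ∈ A)
    (h2 : a2 ∈ A) {i1 i2 : Fin d}
    (hlo : ∀ i, -(1 / 4) < (a2 i + corF i2 i) - (a1 i + corF i1 i))
    (hhi : ∀ i, (a2 i + corF i2 i) - (a1 i + corF i1 i) < 1 / 4) : a1 = a2 ∧ i1 = i2 := by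
  have ha : a1 = a2 := by
    by_contra hne
    obtain ⟨i, hi⟩ := hsep a1 h1 a2 h2 hne
    have b1 := corF_bounds i1 i
    have b2 := corF_bounds i2 i
    have l := hlo i
    have r := hhi i
    rcases le_abs'.mp hi with h3 | h3 <;> linarith only [b1, b2, l, h3, r]
  refine ⟨ha, ?_⟩
  by_contra hne
  have r := hhi i1
  rw [ha, corF_self, corF_ne hne] at r
  linarith only [r]

theorem cornerF (A : Set (Fin d → ℝ)) (hsep : Sep A)
    (h : ∀ᵐ x : Fin d → ℝ, (∃ a ∈ A, ∃ j, x - a - ev j ∈ QF j) → (∃ a ∈ A, ∃ j, x - a ∈ QF j)) :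
    ∀ a ∈ A, ∀ j, a + ev j ∈ A := by
  intro a ha j
  set u : Fin d → ℝ := fun i => a i + ev j i + corF j i with hu
  -- approximation of the corner `u`
  have key : ∀ η : ℝ, 0 < η → η ≤ 1 / 16 → ∃ a1 ∈ A, ∃ i1, ∀ i,
      |a1 i + corF i1 i - u i| < η := by
    intro η hη hη2
    obtain ⟨x, hx, hxp⟩ := exists_mem_box h u (fun i => u i + η) (fun i => by linarith only [hη])
    obtain ⟨y, hy, hyp⟩ := exists_mem_box h (fun i => u i + (1 / 8 - η)) (fun i => u i + 1 / 8)
      (fun i => by linarith only [hη])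
    have hx1 : x - a - ev j ∈ QF j := by
      intro i
      have := hx i
      simp only [hu, Pi.sub_apply] at this ⊢
      constructor <;> linarith only [hη2, this]
    have hy1 : y - a - ev j ∈ QF j := by
      intro i
      have := hy i
      simp only [hu, Pi.sub_apply] at this ⊢
      constructor <;> linarith only [hη2, this]
    obtain ⟨a1, ha1, i1, hq1⟩ := hxp ⟨a, ha, j, hx1⟩
    obtain ⟨a2, ha2, i2, hq2⟩ := hyp ⟨a, ha, j, hy1⟩
    have q1 : ∀ i, a1 i + corF i1 i ≤ x i ∧ x i < a1 i + corF i1 i + 1 / 8 := by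
      intro i
      have := hq1 i
      simp only [Pi.sub_apply] at this
      constructor <;> linarith only [this]
    have q2 : ∀ i, a2 i + corF i2 i ≤ y i ∧ y i < a2 i + corF i2 i + 1 / 8 := by
      intro i
      have := hq2 i
      simp only [Pi.sub_apply] at this
      constructor <;> linarith only [this]
    obtain ⟨e1, e2⟩ := corner_sepF hsep ha1 ha2 (i1 := i1) (i2 := i2)
      (fun i => by linarith only [hη2, (q1 i).1, (q2 i).2, (hx i).2, (hy i).1])
      (fun i => by linarith only [(q1 i).2, (q2 i).1, (hx i).1, (hy i).2])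
    subst e1
    subst e2
    refine ⟨a1, ha1, i1, fun i => ?_⟩
    rw [abs_lt]
    constructor <;> linarith only [(q1 i).1, (hx i).2, (q2 i).2, (hy i).1]
  obtain ⟨a1, ha1, i1, hq⟩ := key (1 / 16) (by norm_num) le_rfl
  have hexact : ∀ i, a1 i + corF i1 i = u i := by
    intro i
    by_contra hne
    have hpos : 0 < |a1 i + corF i1 i - u i| := abs_pos.mpr (sub_ne_zero.mpr hne)
    obtain ⟨a2, ha2, i2, hq2⟩ := key (min (1 / 16) (|a1 i + corF i1 i - u i|))
      (lt_min (by norm_num) hpos) (min_le_left _ _)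
    obtain ⟨e1, e2⟩ := corner_sepF hsep ha1 ha2 (i1 := i1) (i2 := i2)
      (fun k => by
        have h1 := abs_lt.mp (hq k)
        have h2 := abs_lt.mp ((hq2 k).trans_le (min_le_left _ _))
        linarith only [h1, h2])
      (fun k => by
        have h1 := abs_lt.mp (hq k)
        have h2 := abs_lt.mp ((hq2 k).trans_le (min_le_left _ _))
        linarith [h1.1, h1.2, h2.1, h2.2])
    subst e1
    subst e2
    exact lt_irrefl _ ((hq2 i).trans_le (min_le_right _ _))
  by_cases hij : i1 = j
  · subst hij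
    have : a1 = a + ev i1 := by
      funext i
      have := hexact i
      simp only [hu] at this
      rw [Pi.add_apply]
      linarith
    rwa [← this]
  · exfalso
    have hj := hexact j
    simp only [hu] at hj
    rw [ev_self, corF_self, corF_ne (Ne.symm hij)] at hj
    have hne : a1 ≠ a := by
      rintro rfl
      linarith only [hj]
    obtain ⟨i, hi⟩ := hsep a1 ha1 a ha hne
    have hi2 := hexact i
    simp only [hu] at hi2
    by_cases hc : i = j
    · subst hc
      rw [ev_self, corF_self, corF_ne (Ne.symm hij)] at hi2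
      rcases le_abs'.mp hi with h3 | h3 <;> linarith only [hj, h3]
    · rw [ev_ne hc, corF_ne hc] at hi2
      have b := corF_bounds i1 i
      rcases le_abs'.mp hi with h3 | h3 <;> linarith only [hi2, b, h3]

/-- two integer translates of `RF` which share a point agree -/
theorem RF_unique {x : Fin d → ℝ} {z w : Fin d → ℤ} (h : x - iv z ∈ RF d) (h' : x - iv w ∈ RF d) :
    z = w :=
  (RF_fund x).unique h h'

/-- the volume of `RF` is positive -/
theorem RF_pos (hd : 2 ≤ d) : 0 < volume (RF d) := by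
  have h := RF_overlap hd 0 (by simp only [Pi.zero_apply, abs_zero, zero_lt_one, implies_true])
  refine h.trans_le (measure_mono ?_)
  intro x hx
  exact hx.1

/-- Tilings of `ℝ^d` by `F + RF` with periodic translation sets come from tilings of `ℤ^d` by `F`.
`Solves`, `PerSet`, `AperSys` are the definitions of `Vale.Agent.P043.Core`. -/
theorem euclid_explicit (hd : 2 ≤ d) {P : Type} (f : P → (Fin d → ℤ)) (H : AperSys {f}) :
    (∃ A : Set (Fin d → ℝ), A.Countable ∧ TilesAE {x | ∃ p, x - iv (f p) ∈ RF d} A) ∧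
      ∀ A : Set (Fin d → ℝ), TilesAE {x | ∃ p, x - iv (f p) ∈ RF d} A →
        ¬ LatticePeriodic A := by
  obtain ⟨⟨A0, hA0⟩, hno⟩ := H
  have hA : Solves A0 f := hA0 f rfl
  obtain ⟨p00, hp00, _⟩ := hA 0
  have hfinj : Function.Injective f := by
    intro p q hpq
    have h1 : (f p + (0 - f p00)) - f p ∈ A0 := by simpa only [zero_sub, add_sub_cancel_left] using hp00
    have h2 : (f p + (0 - f p00)) - f q ∈ A0 := by rw [← hpq]; exact h1
    exact (hA (f p + (0 - f p00))).unique h1 h2
  set Om : Set (Fin d → ℝ) := {x | ∃ p, x - iv (f p) ∈ RF d} with hOm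
  refine ⟨⟨iv '' A0, A0.to_countable.image _, ?_, ?_⟩, ?_⟩
  · -- existence: cover
    have : (⋃ a ∈ iv '' A0, {x | x - a ∈ Om}) = Set.univ := by
      rw [Set.eq_univ_iff_forall]
      intro x
      obtain ⟨z, hz, _⟩ := RF_fund x
      obtain ⟨p, hp, _⟩ := hA z
      rw [Set.mem_iUnion₂]
      refine ⟨iv (z - f p), ⟨_, hp, rfl⟩, p, ?_⟩
      rw [iv_sub]
      have : x - (iv z - iv (f p)) - iv (f p) = x - iv z := by abel
      rw [this]
      exact hz
    rw [this]
    simp
  · -- existence: disjointness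
    rintro _ ⟨a, ha, rfl⟩ _ ⟨b, hb, rfl⟩ hab
    have : ({x | x - iv a ∈ Om} ∩ {x | x - iv b ∈ Om} : Set (Fin d → ℝ)) = ∅ := by
      rw [Set.eq_empty_iff_forall_notMem]
      rintro x ⟨⟨p, hp⟩, ⟨q, hq⟩⟩
      rw [sub_sub, ← iv_add] at hp hq
      have e := RF_unique hp hq
      have h1 : (a + f p) - f p ∈ A0 := by simpa using ha
      have h2 : (a + f p) - f q ∈ A0 := by rw [e]; simpa using hb
      have h3 := (hA (a + f p)).unique h1 h2
      apply hab
      rw [h3] at e
      rw [add_right_cancel e]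
    rw [this]
    simp
  · rintro A ⟨hcov, hdisj⟩ ⟨b, hper⟩
    set A' : Set (Fin d → ℝ) := {y | ∃ a ∈ A, ∃ p, y = a + iv (f p)} with hA'
    have hsub : ∀ a p, {x | x - (a + iv (f p)) ∈ RF d} ⊆ {x | x - a ∈ Om} := by
      intro a p x hx
      refine ⟨p, ?_⟩
      rw [sub_sub]
      exact hx
    -- positive overlap of close translates
    have hover : ∀ y y' : Fin d → ℝ, (∀ i, |y i - y' i| < 1) →
        volume ({x | x - y ∈ RF d} ∩ {x | x - y' ∈ RF d}) ≠ 0 := by
      intro y y' hyy
      have h1 := RF_overlap hd (y' - y) (fun i => by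
        have := hyy i
        rw [abs_sub_comm] at this
        simpa only [Pi.sub_apply, gt_iff_lt] using this)
      rw [← vol_shift _ y] at h1
      refine ne_of_gt (h1.trans_le (measure_mono ?_))
      rintro x ⟨hx1, hx2⟩
      refine ⟨hx1, ?_⟩
      have e : x - y - (y' - y) = x - y' := by abel
      rw [e] at hx2
      exact hx2
    have hsep : Sep A' := by
      rintro y ⟨a, ha, p, rfl⟩ y' ⟨a', ha', p', rfl⟩ hne
      by_contra hcon
      push Not at hcon
      by_cases haa : a = a'
      · subst haa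
        apply hne
        have : f p = f p' := by
          ext i
          have := hcon i
          simp only [Pi.add_apply, iv, add_sub_add_left_eq_sub] at this
          have h1 : |f p i - f p' i| < 1 := by exact_mod_cast this
          have h2 := Int.abs_lt_one_iff.1 h1
          omega
        rw [this]
      · have h1 := hdisj a ha a' ha' haa
        apply hover _ _ hcon
        exact measure_mono_null (Set.inter_subset_inter (hsub a p) (hsub a' p')) h1
    have htile : TilesAE (RF d) A' := by
      refine ⟨measure_mono_null ?_ hcov, ?_⟩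
      · apply Set.compl_subset_compl.2
        intro x hx
        rw [Set.mem_iUnion₂] at hx ⊢
        obtain ⟨a, ha, p, hp⟩ := hx
        refine ⟨a + iv (f p), ⟨a, ha, p, rfl⟩, ?_⟩
        rw [sub_sub] at hp
        exact hp
      · rintro y ⟨a, ha, p, rfl⟩ y' ⟨a', ha', p', rfl⟩ hne
        by_cases haa : a = a'
        · subst haa
          have : ({x | x - (a + iv (f p)) ∈ RF d} ∩ {x | x - (a + iv (f p')) ∈ RF d} :
              Set (Fin d → ℝ)) = ∅ := by
            rw [Set.eq_empty_iff_forall_notMem]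
            rintro x ⟨h1, h2⟩
            apply hne
            have h1' : x - a - iv (f p) ∈ RF d := by rw [sub_sub]; exact h1
            have h2' : x - a - iv (f p') ∈ RF d := by rw [sub_sub]; exact h2
            rw [RF_unique h1' h2']
          rw [this]
          simp
        · exact measure_mono_null (Set.inter_subset_inter (hsub a p) (hsub a' p'))
            (hdisj a ha a' ha' haa)
    have hper' : ∀ i, ∀ y, b i + y ∈ A' ↔ y ∈ A' := by
      intro i y
      constructor
      · rintro ⟨a, ha, p, h⟩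
        refine ⟨-b i + a, ?_, p, ?_⟩
        · rw [← hper i]; simpa using ha
        · rw [add_assoc, ← h]; simp
      · rintro ⟨a, ha, p, rfl⟩
        exact ⟨b i + a, (hper i a).2 ha, p, by rw [add_assoc]⟩
    have hcoset := lattice_coset A' hsep b hper' (cornerF A' hsep (countF A' hsep b hper' htile))
    obtain ⟨a0, ha0⟩ : A.Nonempty := by
      by_contra hemp
      rw [Set.not_nonempty_iff_eq_empty] at hemp
      rw [hemp] at hcov
      simp only [Set.mem_empty_iff_false, Set.iUnion_of_empty, Set.iUnion_empty, Set.compl_empty, Measure.measure_univ_eq_zero] at hcov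
      exact NeZero.ne (volume : Measure (Fin d → ℝ)) hcov
    have hs : a0 + iv (f p00) ∈ A' := ⟨a0, ha0, p00, rfl⟩
    apply hno
    refine ⟨{z | a0 + iv z ∈ A}, ?_, ?_⟩
    · -- periodic
      have hz : ∀ i, ∃ z : Fin d → ℤ, b i = iv z := by
        intro i
        obtain ⟨z, hz⟩ := hcoset _ hs (b i + a0 + iv (f p00)) ⟨b i + a0, (hper i a0).2 ha0, p00, rfl⟩
        refine ⟨z, ?_⟩
        have e : b i + a0 + iv (f p00) = a0 + iv (f p00) + b i := by abel
        rw [e] at hz
        exact add_left_cancel hz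
      choose z hz using hz
      refine perset_of_basis _ b z hz ?_
      intro i g
      change a0 + iv (z i + g) ∈ A ↔ a0 + iv g ∈ A
      rw [iv_add, ← hz i, ← hper i (a0 + iv g)]
      have e : a0 + (b i + iv g) = b i + (a0 + iv g) := by abel
      rw [e]
    · rintro τ rfl g
      have hposg : volume {x | x - (a0 + iv g) ∈ RF d} ≠ 0 := by
        rw [vol_shift]
        exact (RF_pos hd).ne'
      apply existsUnique_of_exists_of_unique
      · -- existence
        have hnull := htile.1
        have : ∃ x, x ∈ {x | x - (a0 + iv g) ∈ RF d} ∧ x ∈ ⋃ a ∈ A', {x | x - a ∈ RF d} := by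
          by_contra hcon
          push Not at hcon
          apply hposg
          exact measure_mono_null (fun x hx => hcon x hx) hnull
        obtain ⟨x, hx1, hx2⟩ := this
        rw [Set.mem_iUnion₂] at hx2
        obtain ⟨y, hy, hxy⟩ := hx2
        obtain ⟨z, hz⟩ := hcoset _ hs y hy
        have h1 : x - a0 - iv g ∈ RF d := by rw [sub_sub]; exact hx1
        have h2 : x - a0 - iv (τ p00 + z) ∈ RF d := by
          rw [sub_sub, iv_add, ← add_assoc, ← hz]
          exact hxy
        have hgz := RF_unique h1 h2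
        obtain ⟨a, ha, p, hap⟩ := hy
        refine ⟨p, ?_⟩
        change a0 + iv (g - τ p) ∈ A
        have e : a0 + iv (g - τ p) = a := by
          have e1 : a0 + iv g = a + iv (τ p) := by
            rw [← hap, hz, hgz, iv_add, add_assoc]
          rw [iv_sub, ← add_sub_assoc, e1]
          simp
        rw [e]
        exact ha
      · intro p q hp hq
        by_contra hne
        have hne' : a0 + iv (g - τ p) ≠ a0 + iv (g - τ q) := by
          intro h
          apply hne
          apply hfinj
          have := iv_inj (add_left_cancel h)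
          exact sub_right_injective this
        apply hposg
        refine measure_mono_null ?_ (hdisj _ hp _ hq hne')
        intro x hx
        have h3 : ∀ r, x - (a0 + iv (g - τ r)) - iv (τ r) = x - (a0 + iv g) := by
          intro r
          rw [iv_sub]; abel
        exact ⟨⟨p, by rw [h3]; exact hx⟩, ⟨q, by rw [h3]; exact hx⟩⟩


end Vale.Agent.P043.H467.Eu
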