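import Vale.Agent.P043.H467.Conn

/-!
# P043: from an aperiodic tile of `ℤ^3` to a connected aperiodic tile of `ℤ^d`, `d ≥ 3`
-/

set_option autoImplicit false

namespace Vale.Agent.P043.H467

open Vale.Agent.P043

theorem exists_bound (F : Finset (Fin 3 → ℤ)) : ∃ M : ℤ, 0 ≤ M ∧ ∀ f ∈ F, ∀ i, |f i| ≤ M := by
  classical
  refine ⟨∑ f ∈ F, ∑ i, |f i|, Finset.sum_nonneg fun f _ => Finset.sum_nonneg fun i _ => abs_nonneg _, ?_⟩
  intro f hf i
  have h1 : |f i| ≤ ∑ i, |f i| :=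
    Finset.single_le_sum (f := fun i => |f i|) (fun i _ => abs_nonneg _) (Finset.mem_univ i)
  refine h1.trans ?_
  exact Finset.single_le_sum (f := fun f => ∑ i, |f i|)
    (fun f _ => Finset.sum_nonneg fun i _ => abs_nonneg _) hf

theorem connected3 {F : Finset (Fin 3 → ℤ)} (hne : F.Nonempty)
    (h1 : ∃ A : Set (Fin 3 → ℤ), IsTiling A F)
    (h2 : ∀ A : Set (Fin 3 → ℤ), IsTiling A F → ¬ IsPeriodic A) :
    ∃ F' : Finset (Fin 3 → ℤ), F'.Nonempty ∧ ((grid 3).induce (F' : Set (Fin 3 → ℤ))).Connected ∧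
      (∃ A : Set (Fin 3 → ℤ), IsTiling A F') ∧
      ∀ A : Set (Fin 3 → ℤ), IsTiling A F' → ¬ IsPeriodic A := by
  classical
  obtain ⟨M, hM0, hM⟩ := exists_bound F
  obtain ⟨B, hBdef⟩ : ∃ B : ℤ, B = 6 * M + 2 := ⟨_, rfl⟩
  obtain ⟨T, hTdef⟩ : ∃ T : ℤ, T = 2 * M * (1 + B + B ^ 2) + 1 := ⟨_, rfl⟩
  obtain ⟨β, hβdef⟩ : ∃ β : ℤ, β = T + B := ⟨_, rfl⟩
  obtain ⟨x1, hx1def⟩ : ∃ x1 : ℤ, x1 = 2 * M := ⟨_, rfl⟩
  obtain ⟨z0, hz0def⟩ : ∃ z0 : ℤ, z0 = 2 * β * M + 2 * β * B * M + 2 * M := ⟨_, rfl⟩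
  have hB : 1 ≤ B := by omega
  have hT1 : 1 ≤ T := by rw [hTdef]; have : 0 ≤ 2 * M * (1 + B + B ^ 2) := by positivity
                         omega
  have hβ : 1 ≤ β := by omega
  have hT : T + B ≤ β * B ^ 2 + 1 := by
    rw [← hβdef]
    have : 1 ≤ B ^ 2 := one_le_pow₀ hB
    nlinarith
  have hx1 : 0 ≤ x1 := by omega
  have hx1' : x1 < B := by omega
  have hz0 : 0 ≤ z0 := by rw [hz0def]; positivity
  have h2z0 : 2 * z0 < β * B ^ 2 + 1 := by
    have e1 : 4 * M ≤ β * (4 * M) := by nlinarith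
    have e2 : 8 * M + 4 * B * M ≤ B ^ 2 := by rw [hBdef]; nlinarith
    have e3 : β * (8 * M + 4 * B * M) ≤ β * B ^ 2 := by
      exact mul_le_mul_of_nonneg_left e2 (by omega)
    rw [hz0def]
    linarith
  have hz0' : z0 < β * B ^ 2 + 1 := by omega
  obtain ⟨D, hD⟩ : ∃ D : Finset (Fin 3 → ℤ), ∀ c, c ∈ D ↔ inD B β T x1 z0 c :=
    ⟨(inD_finite B β T x1 z0).toFinset, fun c => by rw [Set.Finite.mem_toFinset]; rfl⟩
  have htr : Transv (phi B β) D := transv B β T x1 z0 hB hβ (by omega) hD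
  let F' : Finset (Fin 3 → ℤ) := (F ×ˢ D).image fun p => phi B β p.1 + p.2
  have hF' : ∀ c, c ∈ F' ↔ ∃ f ∈ F, ∃ d ∈ D, phi B β f + d = c := by
    intro c
    simp only [F', Finset.mem_image, Finset.mem_product, Prod.exists]
    constructor
    · rintro ⟨f, d, ⟨hf, hd⟩, e⟩
      exact ⟨f, hf, d, hd, e⟩
    · rintro ⟨f, hf, d, hd, e⟩
      exact ⟨f, d, ⟨hf, hd⟩, e⟩
  have hS : ∀ f ∈ F, ∀ c, inD B β T x1 z0 c → phi B β f + c ∈ (F' : Set (Fin 3 → ℤ)) := by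
    intro f hf c hc
    exact Finset.mem_coe.2 ((hF' _).2 ⟨f, hf, c, (hD _).2 hc, rfl⟩)
  have h100 : inD B β T x1 z0 (v3 1 0 0) := by
    refine Or.inl ⟨rfl, ⟨by simp, by simp only [v3_0]; omega⟩, ⟨by simp, by simp only [v3_2]; positivity⟩, ?_⟩
    have := not_Sx_odd B β T x1 z0 (i := 0) (z := 0)
    simpa using this
  -- the lowest plate
  obtain ⟨g, hg, hgmin⟩ := F.exists_min_image (fun f => f 0 + B * f 1 + B ^ 2 * f 2) hne
  have hcross : ∀ f ∈ F, Rch (F' : Set (Fin 3 → ℤ)) (phi B β g + v3 1 0 0) (phi B β f + v3 1 0 0) := by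
    intro f hf
    have a0 := abs_le.1 (hM f hf 0)
    have a1 := abs_le.1 (hM f hf 1)
    have a2 := abs_le.1 (hM f hf 2)
    have b0 := abs_le.1 (hM g hg 0)
    have b1 := abs_le.1 (hM g hg 1)
    have b2 := abs_le.1 (hM g hg 2)
    have hmin := hgmin f hf
    have hβ0 : 0 ≤ β := by omega
    have hβB0 : 0 ≤ β * B := by positivity
    have c0 : -(β * (2 * M)) ≤ β * (g 0 - f 0) ∧ β * (g 0 - f 0) ≤ β * (2 * M) := by
      constructor
      · have := mul_le_mul_of_nonneg_left (show -(2 * M) ≤ g 0 - f 0 by linarith [a0.2, b0.1]) hβ0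
        linarith
      · exact mul_le_mul_of_nonneg_left (show g 0 - f 0 ≤ 2 * M by linarith [a0.1, b0.2]) hβ0
    have c1 : -(β * B * (2 * M)) ≤ β * B * (g 1 - f 1) ∧ β * B * (g 1 - f 1) ≤ β * B * (2 * M) := by
      constructor
      · have := mul_le_mul_of_nonneg_left (show -(2 * M) ≤ g 1 - f 1 by linarith [a1.2, b1.1]) hβB0
        linarith
      · exact mul_le_mul_of_nonneg_left (show g 1 - f 1 ≤ 2 * M by linarith [a1.1, b1.2]) hβB0
    refine rch_cross hB hβ hT1 hT hx1 hx1' hz0 hz0' (hS g hg) (hS f hf)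
      (k := (f 0 + B * f 1 + B ^ 2 * f 2) - (g 0 + B * g 1 + B ^ 2 * g 2))
      (i := x1 + g 0 - f 0)
      (z := z0 + β * (g 0 - f 0) + β * B * (g 1 - f 1) - (g 2 - f 2)) ?_ ?_ ?_ ?_ ?_ ?_ ?_
    · linarith
    · have d1 : B * (f 1 - g 1) ≤ B * (2 * M) :=
        mul_le_mul_of_nonneg_left (by linarith [a1.2, b1.1]) (by omega)
      have d2 : B ^ 2 * (f 2 - g 2) ≤ B ^ 2 * (2 * M) :=
        mul_le_mul_of_nonneg_left (by linarith [a2.2, b2.1]) (by positivity)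
      rw [hTdef]
      linarith [a0.2, b0.1]
    · rw [hx1def]; linarith [a0.2, b0.1]
    · rw [hx1def, hBdef]; linarith [a0.1, b0.2]
    · rw [hz0def]; linarith [c0.1, c1.1, b2.2, a2.1]
    · have : z0 + β * (g 0 - f 0) + β * B * (g 1 - f 1) - (g 2 - f 2) ≤ 2 * z0 := by
        rw [hz0def]; linarith [c0.2, c1.2, b2.1, a2.2]
      linarith
    · rw [phi_apply, phi_apply]
      apply ext3 <;> simp only [v3_0, v3_1, v3_2, Pi.add_apply] <;> ring
  refine ⟨F', ⟨_, Finset.mem_coe.1 (hS g hg _ h100)⟩, connected_of_rch (hS g hg _ h100) ?_,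
    transfer htr hF' h1 h2⟩
  intro c hc
  obtain ⟨f, hf, d, hd, rfl⟩ := (hF' c).1 (Finset.mem_coe.1 hc)
  exact (hcross f hf).trans (rch_all hB hβ hT1 hT hx1 hx1' hz0 hz0' (hS f hf) ((hD _).1 hd))

/-- The embedding of `ℤ^3` into `ℤ^(k+3)`. -/
def emb (k : ℕ) : (Fin 3 → ℤ) →+ (Fin (3 + k) → ℤ) where
  toFun v := Fin.append v 0
  map_zero' := by
    ext i
    refine Fin.addCases (fun j => ?_) (fun j => ?_) i <;> simp
  map_add' v w := by
    ext i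
    refine Fin.addCases (fun j => ?_) (fun j => ?_) i <;> simp

/-- The projection of `ℤ^(k+3)` onto `ℤ^3`. -/
def prj (k : ℕ) : (Fin (3 + k) → ℤ) →+ (Fin 3 → ℤ) where
  toFun v := fun i => v (Fin.castAdd k i)
  map_zero' := rfl
  map_add' _ _ := rfl

theorem prj_emb (k : ℕ) (v : Fin 3 → ℤ) : prj k (emb k v) = v := by
  funext i
  simp [prj, emb]

theorem adj_emb (k : ℕ) {v w : Fin 3 → ℤ} (h : (grid 3).Adj v w) :
    (grid (3 + k)).Adj (emb k v) (emb k w) := by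
  change ∑ i, |emb k v i - emb k w i| = 1
  rw [Fin.sum_univ_add]
  have h' : ∑ i, |v i - w i| = 1 := h
  simpa [emb] using h'

theorem rch_emb (k : ℕ) {S : Set (Fin 3 → ℤ)} {x y : Fin 3 → ℤ} (h : Rch S x y) :
    Rch (emb k '' S) (emb k x) (emb k y) := by
  induction h with
  | refl => exact Rch.refl _
  | tail _ h2 ih => exact ih.trans (Rch.step ⟨_, h2.1, rfl⟩ ⟨_, h2.2.1, rfl⟩ (adj_emb k h2.2.2))

theorem rch_of_connected {d : ℕ} {S : Set (Fin d → ℤ)} (h : ((grid d).induce S).Connected)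
    {x y : Fin d → ℤ} (hx : x ∈ S) (hy : y ∈ S) : Rch S x y := by
  obtain ⟨p⟩ := h.preconnected ⟨x, hx⟩ ⟨y, hy⟩
  have key : ∀ (a b : S), ((grid d).induce S).Walk a b → Rch S a.1 b.1 := by
    intro a b p
    induction p with
    | nil => exact Rch.refl _
    | @cons u v w h p ih =>
      rw [SimpleGraph.induce_adj] at h
      exact (Rch.step u.2 v.2 h).trans ih
  exact key _ _ p

/-- For every `d ≥ 3` there is a connected finite tile of `ℤ^d` without periodic tilings. -/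
theorem connected_all {F : Finset (Fin 3 → ℤ)} (hne : F.Nonempty)
    (h1 : ∃ A : Set (Fin 3 → ℤ), IsTiling A F)
    (h2 : ∀ A : Set (Fin 3 → ℤ), IsTiling A F → ¬ IsPeriodic A) (d : ℕ) (hd : 3 ≤ d) :
    ∃ F' : Finset (Fin d → ℤ), F'.Nonempty ∧ ((grid d).induce (F' : Set (Fin d → ℤ))).Connected ∧
      (∃ A : Set (Fin d → ℤ), IsTiling A F') ∧
      ∀ A : Set (Fin d → ℤ), IsTiling A F' → ¬ IsPeriodic A := by
  classical
  obtain ⟨k, rfl⟩ := Nat.exists_eq_add_of_le hd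
  obtain ⟨F1, hne1, hc1, ht1, hp1⟩ := connected3 hne h1 h2
  have hF' : ∀ c, c ∈ F1.image (emb k) ↔ ∃ f ∈ F1, emb k f = c := by
    intro c
    rw [Finset.mem_image]
  obtain ⟨x0, hx0⟩ := hne1
  refine ⟨F1.image (emb k), ⟨_, (hF' _).2 ⟨x0, hx0, rfl⟩⟩, ?_,
    transfer_embed (emb k) (prj k) (prj_emb k) hF' ht1 hp1⟩
  rw [Finset.coe_image]
  refine connected_of_rch (x0 := emb k x0) ⟨x0, Finset.mem_coe.2 hx0, rfl⟩ ?_
  rintro _ ⟨y, hy, rfl⟩
  exact rch_emb k (rch_of_connected hc1 (Finset.mem_coe.2 hx0) hy)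

end Vale.Agent.P043.H467
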